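import Vale.Agent.P207Z.MET.Cor

/-!
# Multiplicities, constancy of the spectrum for ergodic flows, measurable fields of subspaces
-/

set_option linter.all false

open MeasureTheory Filter Topology Set

namespace Vale.Agent.P207Z.MET

variable {X : Type*} {E : Type*} [NormedAddCommGroup E] [NormedSpace ℝ E] [FiniteDimensional ℝ E]
  {φ : ℝ → X → X} {Φ : ℝ → X → E →L[ℝ] E} {L : ℝ} {x : X}

/-- the trace -/
noncomputable def trc (A : E →L[ℝ] E) : ℝ := LinearMap.trace ℝ E (A : E →ₗ[ℝ] E)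

lemma trc_mul_comm (A B : E →L[ℝ] E) : trc (A * B) = trc (B * A) :=
  LinearMap.trace_mul_comm ℝ (A : E →ₗ[ℝ] E) B

lemma trc_cont : Continuous (trc : (E →L[ℝ] E) → ℝ) :=
  LinearMap.continuous_of_finiteDimensional
    ((LinearMap.trace ℝ E).comp (ContinuousLinearMap.coeLM ℝ))

lemma trc_sum {ι : Type*} (S : Finset ι) (A : ι → E →L[ℝ] E) :
    trc (∑ i ∈ S, A i) = ∑ i ∈ S, trc (A i) :=
  map_sum ((LinearMap.trace ℝ E).comp (ContinuousLinearMap.coeLM ℝ)) A S

lemma trc_smul (c : ℝ) (A : E →L[ℝ] E) : trc (c • A) = c * trc A :=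
  map_smul ((LinearMap.trace ℝ E).comp (ContinuousLinearMap.coeLM ℝ)) c A

lemma trc_zero : trc (0 : E →L[ℝ] E) = 0 := map_zero (LinearMap.trace ℝ E)

lemma trc_idem {A : E →L[ℝ] E} (h : A * A = A) : trc A = Module.finrank ℝ A.range := by
  have h1 : IsIdempotentElem (A : E →ₗ[ℝ] E) := congrArg ContinuousLinearMap.toLinearMap h
  exact (LinearMap.IsIdempotentElem.isProj_range _ h1).trace

/-- the multiplicity of the exponent `a` at the point `x` -/
noncomputable def mlt (φ : ℝ → X → X) (Φ : ℝ → X → E →L[ℝ] E) (x : X) (a : ℝ) : ℕ :=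
  Module.finrank ℝ (prj φ Φ x a).range

lemma prj_idem (hφ : FAct φ) (hc : FCoc φ Φ L) (x : X) (a : ℝ) :
    prj φ Φ x a * prj φ Φ x a = prj φ Φ x a := by
  by_cases h : Reg φ Φ x
  · exact h.osel.idem hφ hc a
  · simp [prj_of_not h]

lemma mlt_eq (hφ : FAct φ) (hc : FCoc φ Φ L) (x : X) (a : ℝ) :
    (mlt φ Φ x a : ℝ) = trc (prj φ Φ x a) := (trc_idem (prj_idem hφ hc x a)).symm

lemma mlt_map (hφ : FAct φ) (hc : FCoc φ Φ L) (u : ℝ) (x : X) : mlt φ Φ (φ u x) = mlt φ Φ x := by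
  funext a
  apply Nat.cast_injective (R := ℝ)
  rw [mlt_eq hφ hc, mlt_eq hφ hc, prj_map hφ hc, trc_mul_comm, ← mul_assoc, hc.neg_mul, prj_left]

lemma mlt_eq_zero {a : ℝ} : mlt φ Φ x a = 0 ↔ prj φ Φ x a = 0 := by
  rw [mlt, Submodule.finrank_eq_zero, LinearMap.range_eq_bot]
  exact ⟨fun h => ContinuousLinearMap.coe_injective h, fun h => by rw [h]; rfl⟩

lemma trc_del (hφ : FAct φ) (hc : FCoc φ Φ L) {S : Finset ℝ} (hS : ∀ a, prj φ Φ x a ≠ 0 → a ∈ S) :
    trc (del φ Φ x) = ∑ a ∈ S, a * mlt φ Φ x a := by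
  rw [del_eq hS, trc_sum]
  exact Finset.sum_congr rfl fun a _ => by rw [trc_smul, mlt_eq hφ hc]

/-- the number of exponents below `r` -/
noncomputable def cum (m : ℝ → ℕ) (r : ℝ) : ℝ := ∑ᶠ a, if a < r then (m a : ℝ) else 0

lemma cum_eq {m : ℝ → ℕ} {S : Finset ℝ} (hS : ∀ a, m a ≠ 0 → a ∈ S) (r : ℝ) :
    cum m r = ∑ a ∈ S, if a < r then (m a : ℝ) else 0 :=
  finsum_eq_sum_of_support_subset _ fun a ha => hS a fun e => ha (by simp [e])

lemma eq_of_cum {m m' : ℝ → ℕ} (h : (Function.support m).Finite) (h' : (Function.support m').Finite)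
    (he : ∀ q : ℚ, cum m q = cum m' q) : m = m' := by
  classical
  funext a
  set S := insert a (h.toFinset ∪ h'.toFinset) with hS
  have h1 : ∀ᶠ t in 𝓝 a, ∀ b ∈ S, (b < a → b < t) ∧ (a < b → t ≤ b) :=
    (Finset.eventually_all S).2 fun b _ => by
      refine Eventually.and ?_ ?_
      · by_cases hb : b < a
        · exact (eventually_gt_nhds hb).mono fun t ht _ => ht
        · exact Eventually.of_forall fun t e => absurd e hb
      · by_cases hb : a < b
        · exact (eventually_le_nhds hb).mono fun t ht _ => ht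
        · exact Eventually.of_forall fun t e => absurd e hb
  obtain ⟨δ, hδ, h2⟩ := Metric.eventually_nhds_iff.1 h1
  obtain ⟨q1, a1, a2⟩ := exists_rat_btwn (show a - δ < a by linarith)
  obtain ⟨q2, b1, b2⟩ := exists_rat_btwn (show a < a + δ by linarith)
  have c1 := h2 (y := q1) (by rw [Real.dist_eq, abs_lt]; constructor <;> linarith)
  have c2 := h2 (y := q2) (by rw [Real.dist_eq, abs_lt]; constructor <;> linarith)
  have key : ∀ n : ℝ → ℕ, (∀ b, n b ≠ 0 → b ∈ S) → cum n q2 - cum n q1 = n a := fun n hn => by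
    rw [cum_eq hn, cum_eq hn, ← Finset.sum_sub_distrib, Finset.sum_eq_single a (fun b hb hba => ?_)
      (by simp [hS]), if_pos b1, if_neg (not_lt.2 a2.le), sub_zero]
    rcases lt_or_gt_of_ne hba with h3 | h3
    · rw [if_pos (h3.trans b1), if_pos ((c1 b hb).1 h3), sub_self]
    · rw [if_neg (not_lt.2 ((c2 b hb).2 h3)), if_neg (not_lt.2 (a2.trans h3).le), sub_self]
  apply Nat.cast_injective (R := ℝ)
  rw [← key m fun b hb => by simp [hS, hb], ← key m' fun b hb => by simp [hS, hb], he, he]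

lemma mlt_fin (x : X) : (Function.support (mlt φ Φ x)).Finite :=
  (prj_fin x).subset fun a ha => mt mlt_eq_zero.2 ha

variable [MeasurableSpace X] {μ : Measure X}

/-- ergodicity of the flow: invariant functions are constant -/
def FErg (φ : ℝ → X → X) (μ : Measure X) : Prop :=
  ∀ f : X → ℝ, AEMeasurable f μ → (∀ t x, f (φ t x) = f x) → ∃ c, ∀ᵐ x ∂μ, f x = c

/-- the spectrum of an ergodic cocycle is constant -/
theorem mlt_const [IsFiniteMeasure μ] (hφ : FAct φ) (hp : ∀ n : ℤ, MeasurePreserving (φ n) μ μ)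
    (h : FCoc φ Φ L) (hm : ∀ n : ℤ, Measurable (Φ n)) (he : FErg φ μ) :
    ∃ m : ℝ → ℕ, (Function.support m).Finite ∧ ∀ᵐ x ∂μ, mlt φ Φ x = m := by
  classical
  obtain ⟨d, P, lam, h1, h2, h3⟩ := met_flow hφ hp h hm
  have hq : ∀ q : ℚ, AEMeasurable (fun x => cum (mlt φ Φ x) q) μ := fun q => by
    refine ⟨fun x => ∑ i, if lam i x < q then trc (P i x) else 0, Finset.measurable_fun_sum _
      fun i _ => Measurable.ite (measurableSet_lt (h2 i) measurable_const)
        (trc_cont.measurable.comp (h1 i)) measurable_const, h3.mono fun x hx => ?_⟩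
    dsimp only
    rw [cum_eq (S := Finset.univ.image fun i => lam i x) fun a ha => by
      by_contra hc
      refine ha (mlt_eq_zero.2 ?_)
      rw [hx.2.1]
      exact Finset.sum_eq_zero fun i _ => if_neg fun e => hc
        (Finset.mem_image.2 ⟨i, Finset.mem_univ _, e⟩)]
    have e : ∀ a : ℝ, (if a < q then (mlt φ Φ x a : ℝ) else 0) =
        ∑ i, if lam i x = a then (if lam i x < q then trc (P i x) else 0) else 0 := fun a => by
      rw [mlt_eq hφ h, hx.2.1, trc_sum]
      split_ifs with ha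
      · refine Finset.sum_congr rfl fun i _ => ?_
        split_ifs with e1 e2
        · rfl
        · exact absurd (e1 ▸ ha) e2
        · exact trc_zero
      · refine (Finset.sum_eq_zero fun i _ => ?_).symm
        split_ifs with e1 e2
        · exact absurd (e1 ▸ e2) ha
        · rfl
        · rfl
    simp only [e]
    rw [Finset.sum_comm]
    refine Finset.sum_congr rfl fun i _ => ?_
    rw [Finset.sum_ite_eq, if_pos (Finset.mem_image_of_mem _ (Finset.mem_univ i))]
  choose c hc using fun q : ℚ => he _ (hq q) fun t x => by rw [mlt_map hφ h]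
  have h4 := ae_all_iff.2 hc
  rcases eq_zero_or_neZero μ with rfl | hμ
  · exact ⟨0, by simp, by simp⟩
  · obtain ⟨x0, hx0⟩ := h4.exists
    exact ⟨mlt φ Φ x0, mlt_fin x0, h4.mono fun x hx => eq_of_cum (mlt_fin x) (mlt_fin x0)
      fun q => (hx q).trans (hx0 q).symm⟩

section sub

variable {E' : Type*} [NormedAddCommGroup E'] [NormedSpace ℝ E'] [FiniteDimensional ℝ E']

/-- measurable fields of subspaces -/
def MSub (μ : Measure X) (W : X → Submodule ℝ E) : Prop :=
  ∃ A : X → E →L[ℝ] E, AEMeasurable A μ ∧ ∀ᵐ x ∂μ, (A x).range = W x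

/-- a bounded measurable projection -/
lemma MSub.exists_proj {W : X → Submodule ℝ E} (h : MSub μ W) :
    ∃ (p : X → E →L[ℝ] E) (K : ℝ), Measurable p ∧ (∀ x, ‖p x‖ ≤ K) ∧ (∀ x, p x * p x = p x) ∧
      ∀ᵐ x ∂μ, (∀ v, p x v ∈ W x) ∧ ∀ v ∈ W x, p x v = v := by
  obtain ⟨A, hA, hW⟩ := h
  obtain ⟨p, K, -, p1, p2, p3, p4⟩ := exists_proj_range hA.measurable_mk
  refine ⟨p, K, p1, p2, fun x => ContinuousLinearMap.ext fun v => p4 x _ (p3 x v), ?_⟩
  filter_upwards [hW, hA.ae_eq_mk] with x h1 h2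
  rw [← h1, h2]
  exact ⟨p3 x, p4 x⟩

lemma MSub.congr {W W' : X → Submodule ℝ E} (h : MSub μ W) (e : ∀ᵐ x ∂μ, W x = W' x) : MSub μ W' := by
  obtain ⟨A, hA, hW⟩ := h
  exact ⟨A, hA, (hW.and e).mono fun x hx => hx.1.trans hx.2⟩

lemma msub_range {A : X → E' →L[ℝ] E} (hA : AEMeasurable A μ) : MSub μ fun x => (A x).range := by
  obtain ⟨p, K, -, p1, -, p3, p4⟩ := exists_proj_range hA.measurable_mk
  refine ⟨p, p1.aemeasurable, hA.ae_eq_mk.mono fun x hx => ?_⟩
  dsimp only
  rw [hx]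
  exact le_antisymm (by rintro _ ⟨v, rfl⟩; exact p3 x v) fun v hv => ⟨v, p4 x v hv⟩

lemma msub_const (W : Submodule ℝ E) : MSub μ fun _ : X => W :=
  (msub_range (A := fun _ => W.subtypeL) aemeasurable_const).congr
    (Eventually.of_forall fun _ => Submodule.range_subtype W)

lemma aem_comp {E'' : Type*} [NormedAddCommGroup E''] [NormedSpace ℝ E''] [FiniteDimensional ℝ E'']
    {B : X → E' →L[ℝ] E''} {A : X → E →L[ℝ] E'} (hB : AEMeasurable B μ) (hA : AEMeasurable A μ) :
    AEMeasurable (fun x => B x ∘L A x) μ :=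
  (continuous_fst.clm_comp continuous_snd :
    Continuous fun q : (E' →L[ℝ] E'') × (E →L[ℝ] E') => q.1 ∘L q.2).measurable.comp_aemeasurable
    (hB.prodMk hA)

lemma MSub.map {W : X → Submodule ℝ E} (h : MSub μ W) {B : X → E →L[ℝ] E'} (hB : AEMeasurable B μ) :
    MSub μ fun x => (W x).map (B x : E →ₗ[ℝ] E') := by
  obtain ⟨A, hA, hW⟩ := h
  refine (msub_range (aem_comp hB hA)).congr (hW.mono fun x hx => ?_)
  rw [← hx]
  exact LinearMap.range_comp _ _

lemma MSub.sup {W W' : X → Submodule ℝ E} (h : MSub μ W) (h' : MSub μ W') :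
    MSub μ fun x => W x ⊔ W' x := by
  obtain ⟨A, hA, hW⟩ := h
  obtain ⟨A', hA', hW'⟩ := h'
  refine (msub_range ((aem_comp hA (aemeasurable_const (b := ContinuousLinearMap.fst ℝ E E))).add
    (aem_comp hA' (aemeasurable_const (b := ContinuousLinearMap.snd ℝ E E))))).congr
    ((hW.and hW').mono fun x hx => ?_)
  rw [← hx.1, ← hx.2, ← LinearMap.range_coprod]
  rfl

lemma meas_proj_ker {H H' : Type*} [NormedAddCommGroup H] [InnerProductSpace ℝ H]
    [FiniteDimensional ℝ H] [NormedAddCommGroup H'] [InnerProductSpace ℝ H'] [FiniteDimensional ℝ H']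
    {A : X → H →L[ℝ] H'} (hA : Measurable A) : Measurable fun x => (A x).ker.starProjection := by
  have hB : Measurable fun x => ContinuousLinearMap.adjoint (A x) :=
    ContinuousLinearMap.adjoint.continuous.measurable.comp hA
  have e : (fun x => (A x).ker.starProjection) =
      fun x => 1 - (ContinuousLinearMap.adjoint (A x)).range.starProjection := by
    funext x
    rw [← Submodule.starProjection_orthogonal']
    congr 1
    rw [ContinuousLinearMap.orthogonal_range, ContinuousLinearMap.adjoint_adjoint]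
  rw [e]
  exact measurable_const.sub (meas_proj_range hB)

lemma msub_ker_aux {H H' : Type*} [NormedAddCommGroup H] [InnerProductSpace ℝ H]
    [FiniteDimensional ℝ H] [NormedAddCommGroup H'] [InnerProductSpace ℝ H'] [FiniteDimensional ℝ H']
    (e : E ≃L[ℝ] H) (e' : E' ≃L[ℝ] H') {A : X → E →L[ℝ] E'} (hA : AEMeasurable A μ) :
    MSub μ fun x => (A x).ker := by
  let B := fun x => e'.toContinuousLinearMap ∘L hA.mk A x ∘L e.symm.toContinuousLinearMap
  have hB : Measurable B :=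
    (continuous_const.clm_comp (continuous_id.clm_comp continuous_const)).measurable.comp
      hA.measurable_mk
  refine (msub_range (aem_comp (aemeasurable_const (b := e.symm.toContinuousLinearMap))
    (meas_proj_ker hB).aemeasurable)).congr (hA.ae_eq_mk.mono fun x hx => ?_)
  rw [hx]
  ext v
  constructor
  · rintro ⟨w, rfl⟩
    exact e'.map_eq_zero_iff.1 (LinearMap.mem_ker.1 ((B x).ker.starProjection_apply_mem w))
  · intro hv
    refine ⟨e v, ?_⟩
    have h3 : e v ∈ (B x).ker := by simpa [B] using hv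
    change e.symm ((B x).ker.starProjection (e v)) = v
    rw [Submodule.starProjection_eq_self_iff.2 h3]
    simp

lemma msub_ker {A : X → E →L[ℝ] E'} (hA : AEMeasurable A μ) : MSub μ fun x => (A x).ker :=
  msub_ker_aux toEuclidean toEuclidean hA

lemma MSub.comap {W : X → Submodule ℝ E'} (h : MSub μ W) {B : X → E →L[ℝ] E'}
    (hB : AEMeasurable B μ) : MSub μ fun x => (W x).comap (B x : E →ₗ[ℝ] E') := by
  obtain ⟨p, K, p1, -, -, p3⟩ := h.exists_proj
  refine (msub_ker (aem_comp (measurable_const.sub p1 :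
    Measurable fun x => 1 - p x).aemeasurable hB)).congr (p3.mono fun x hx => ?_)
  ext v
  change B x v - p x (B x v) = 0 ↔ B x v ∈ W x
  rw [sub_eq_zero]
  exact ⟨fun e => e ▸ hx.1 _, fun e => (hx.2 _ e).symm⟩

lemma MSub.inf {W W' : X → Submodule ℝ E} (h : MSub μ W) (h' : MSub μ W') :
    MSub μ fun x => W x ⊓ W' x := by
  obtain ⟨p, K, p1, -, -, p3⟩ := h.exists_proj
  refine ((h'.comap p1.aemeasurable).map p1.aemeasurable).congr (p3.mono fun x hx => ?_)
  ext v
  constructor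
  · rintro ⟨w, hw, rfl⟩
    exact ⟨hx.1 w, hw⟩
  · rintro ⟨h1, h2⟩
    refine ⟨v, ?_, hx.2 v h1⟩
    change p x v ∈ W' x
    rwa [hx.2 v h1]

lemma MSub.finrank {W : X → Submodule ℝ E} (h : MSub μ W) :
    AEMeasurable (fun x => (Module.finrank ℝ (W x) : ℝ)) μ := by
  obtain ⟨p, K, p1, -, p2, p3⟩ := h.exists_proj
  refine ⟨fun x => trc (p x), trc_cont.measurable.comp p1, p3.mono fun x hx => ?_⟩
  dsimp only
  rw [trc_idem (p2 x), show (p x).range = W x from
    le_antisymm (by rintro _ ⟨v, rfl⟩; exact hx.1 v) fun v hv => ⟨v, hx.2 v hv⟩]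

theorem MSub.prj_mem [IsFiniteMeasure μ] (hφ : FAct φ) (hp : ∀ n : ℤ, MeasurePreserving (φ n) μ μ)
    (h : FCoc φ Φ L) (hm : ∀ n : ℤ, Measurable (Φ n)) {W : X → Submodule ℝ E} (hW : MSub μ W)
    (h0 : ∀ᵐ x ∂μ, ∀ v ∈ W x, Φ 0 x v = v)
    (hi : ∀ n : ℤ, ∀ᵐ x ∂μ, ∀ v ∈ W x, Φ n x v ∈ W (φ n x)) :
    ∀ᵐ x ∂μ, (∀ a, ∀ v ∈ W x, prj φ Φ x a v ∈ W x) ∧ ∀ v ∈ W x, del φ Φ x v ∈ W x := by
  obtain ⟨A, hA, hW⟩ := hW
  exact (MET.prj_mem hφ hp h hm hA hW h0 hi).and (del_mem hφ hp h hm hA hW h0 hi)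

lemma msub_prj [IsFiniteMeasure μ] (hφ : FAct φ) (hp : ∀ n : ℤ, MeasurePreserving (φ n) μ μ)
    (h : FCoc φ Φ L) (hm : ∀ n : ℤ, Measurable (Φ n)) {a : X → ℝ} (ha : Measurable a) :
    MSub μ fun x => (prj φ Φ x (a x)).range := msub_range (aemeasurable_prj hφ hp h hm ha)

end sub

end Vale.Agent.P207Z.MET
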