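import Vale.Agent.P207Z.MET.FMain

/-!
# Equivariant measurable objects respect the Oseledets grading
-/

set_option linter.all false

open MeasureTheory Filter Topology Set

namespace Vale.Agent.P207Z.MET

variable {X : Type*} {E : Type*} [NormedAddCommGroup E] [NormedSpace ℝ E]
  {E' : Type*} [NormedAddCommGroup E'] [NormedSpace ℝ E']
  {E'' : Type*} [NormedAddCommGroup E''] [NormedSpace ℝ E'']
  {φ : ℝ → X → X} {Φ : ℝ → X → E →L[ℝ] E} {Φ' : ℝ → X → E' →L[ℝ] E'}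
  {Φ'' : ℝ → X → E'' →L[ℝ] E''} {L L' L'' : ℝ} {x : X}
  {π : ℝ → E →L[ℝ] E} {π' : ℝ → E' →L[ℝ] E'} {π'' : ℝ → E'' →L[ℝ] E''}

lemma Osel.up_apply (hφ : FAct φ) (h : Osel φ Φ x π) (a : ℝ) {ε : ℝ} (hε : 0 < ε) :
    ∃ C : ℝ, 0 ≤ C ∧ ∀ t v, ‖Φ t x (π a v)‖ ≤ C * Real.exp (t * a + ε * |t|) * ‖v‖ := by
  obtain ⟨C, hC⟩ := (h.bd a).up hφ (h.right a) hε
  exact ⟨C, nn_of_exp (norm_nonneg _) (hC 0), fun t v =>
    ContinuousLinearMap.le_of_opNorm_le _ (hC t) v⟩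

lemma Osel.low_apply (hc : FCoc φ Φ L) (h : Osel φ Φ x π) (a : ℝ) {ε : ℝ} (hε : 0 < ε) :
    ∃ C : ℝ, 0 ≤ C ∧ ∀ t v, ‖π a v‖ ≤ C * Real.exp (-(t * a) + ε * |t|) * ‖Φ t x v‖ :=
  (h.bd a).low hc (h.left a) (h.right a) hε

lemma Osel.sum_apply (h : Osel φ Φ x π) {S : Finset ℝ} (hS : ∀ a, π a ≠ 0 → a ∈ S) (v : E) :
    ∑ a ∈ S, π a v = Φ 0 x v := by
  rw [← h.sum_eq hS, ContinuousLinearMap.sum_apply]

/-- a vector with one component -/
lemma Osel.eq_of_zero (h : Osel φ Φ x π) {v : E} {a : ℝ} (hv : ∀ b, b ≠ a → π b v = 0) :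
    π a v = Φ 0 x v := by
  classical
  rw [← h.sum_apply (S := insert a h.fin.toFinset) fun b hb => by simp [hb],
    Finset.sum_eq_single a (fun b _ hb => hv b hb) (by simp)]

/-- two-sided growth along the integers determines the component -/
lemma Osel.zero_of_growth (hc : FCoc φ Φ L) (h : Osel φ Φ x π) {v : E} {l : ℝ}
    (hv : ∀ ε, 0 < ε → ∃ C : ℝ, ∀ n : ℤ, ‖Φ n x v‖ ≤ C * Real.exp (n * l + ε * |(n : ℝ)|))
    {a : ℝ} (ha : a ≠ l) : π a v = 0 := by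
  refine norm_le_zero_iff.1 ((Rec.of_bdd (φ := φ) (x := x) (f := fun _ => 1) (K := 1)
    fun _ => le_rfl).le_zero (c := l - a) (sub_ne_zero.2 ha.symm) fun ε hε => ?_)
  obtain ⟨C, hC⟩ := hv (ε / 2) (half_pos hε)
  obtain ⟨D, hD0, hD⟩ := h.low_apply hc a (half_pos hε)
  have hC0 : 0 ≤ C := nn_of_exp (norm_nonneg _) (hC 0)
  refine ⟨D * C, by positivity, fun n => (hD n v).trans ((mul_le_mul_of_nonneg_left (hC n)
    (by positivity)).trans_eq ?_)⟩
  rw [mul_mul_mul_comm, ← Real.exp_add, mul_one]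
  congr 2
  ring

/-- sections which are equivariant up to a scalar of exponent `l` -/
lemma Osel.section (hc : FCoc φ Φ L) (h : Osel φ Φ x π) {s : X → E} {c : ℤ → ℝ} {l : ℝ}
    (hs : ∀ n : ℤ, Φ n x (s x) = c n • s (φ n x)) (hr : Rec φ (fun y => ‖s y‖) x)
    (hl : ∀ ε, 0 < ε → ∃ C : ℝ, ∀ n : ℤ, |c n| ≤ C * Real.exp (n * l + ε * |(n : ℝ)|))
    {a : ℝ} (ha : a ≠ l) : π a (s x) = 0 := by
  refine norm_le_zero_iff.1 (hr.le_zero (c := l - a) (sub_ne_zero.2 ha.symm) fun ε hε => ?_)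
  obtain ⟨C, hC⟩ := hl (ε / 2) (half_pos hε)
  obtain ⟨D, hD0, hD⟩ := h.low_apply hc a (half_pos hε)
  have hC0 : 0 ≤ C := nn_of_exp (abs_nonneg _) (hC 0)
  refine ⟨D * C, by positivity, fun n => (hD n _).trans ?_⟩
  rw [hs, norm_smul, ← mul_assoc]
  refine mul_le_mul_of_nonneg_right ((mul_le_mul_of_nonneg_left (hC n)
    (by positivity)).trans_eq ?_) (norm_nonneg _)
  rw [mul_mul_mul_comm, ← Real.exp_add]
  congr 2
  ring

/-- invariant sections have exponent zero -/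
lemma Osel.section_zero (hc : FCoc φ Φ L) (h : Osel φ Φ x π) {s : X → E}
    (hs : ∀ n : ℤ, Φ n x (s x) = s (φ n x)) (hr : Rec φ (fun y => ‖s y‖) x)
    {a : ℝ} (ha : a ≠ 0) : π a (s x) = 0 :=
  h.section hc (c := fun _ => 1) (l := 0) (fun n => by rw [hs, one_smul]) hr
    (fun ε hε => ⟨1, fun n => by
      rw [abs_one, one_mul, mul_zero, zero_add]
      exact Real.one_le_exp (by positivity)⟩) ha

/-- intertwiners -/
lemma Osel.inter (hφ : FAct φ) (hc' : FCoc φ Φ' L') (h : Osel φ Φ x π) (h' : Osel φ Φ' x π')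
    {A : X → E →L[ℝ] E'} (hA : ∀ (n : ℤ) v, Φ' n x (A x v) = A (φ n x) (Φ n x v))
    (hr : Rec φ (fun y => ‖A y‖) x) {a b : ℝ} (hab : b ≠ a) (v : E) : π' b (A x (π a v)) = 0 := by
  refine norm_le_zero_iff.1 (hr.le_zero (c := a - b) (sub_ne_zero.2 hab.symm) fun ε hε => ?_)
  obtain ⟨C, hC0, hC⟩ := h.up_apply hφ a (half_pos hε)
  obtain ⟨D, hD0, hD⟩ := h'.low_apply hc' b (half_pos hε)
  refine ⟨D * C * ‖v‖, by positivity, fun n => (hD n _).trans ?_⟩
  rw [hA]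
  refine (mul_le_mul_of_nonneg_left (((A _).le_opNorm _).trans (mul_le_mul_of_nonneg_left (hC n v)
    (norm_nonneg _))) (by positivity)).trans_eq ?_
  rw [show (n : ℝ) * (a - b) + ε * |(n : ℝ)| = (-(n * b) + ε / 2 * |(n : ℝ)|) +
    (n * a + ε / 2 * |(n : ℝ)|) by ring, Real.exp_add _ (n * a + _)]
  ring

lemma Osel.inter_eq (hφ : FAct φ) (hc' : FCoc φ Φ' L') (h : Osel φ Φ x π) (h' : Osel φ Φ' x π')
    {A : X → E →L[ℝ] E'} (hA : ∀ (n : ℤ) v, Φ' n x (A x v) = A (φ n x) (Φ n x v))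
    (hr : Rec φ (fun y => ‖A y‖) x) (a : ℝ) {v : E} (hv : Φ 0 x v = v) :
    A x (π a v) = π' a (A x v) := by
  classical
  have h0 := hA 0 (π a v)
  rw [Int.cast_zero, hφ.zero, ← ContinuousLinearMap.mul_apply _ (π a), h.left] at h0
  rw [← h0, ← h'.eq_of_zero fun b hb => h.inter hφ hc' h' hA hr hb v]
  conv_rhs => rw [← hv, ← h.sum_apply (S := insert a h.fin.toFinset) fun b hb => by simp [hb]]
  rw [map_sum, map_sum, Finset.sum_eq_single a (fun b _ hb => h.inter hφ hc' h' hA hr hb.symm v)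
    (by simp)]

lemma Reg.inter_del (hφ : FAct φ) (hc' : FCoc φ Φ' L') (h : Reg φ Φ x) (h' : Reg φ Φ' x)
    {A : X → E →L[ℝ] E'} (hA : ∀ (n : ℤ) v, Φ' n x (A x v) = A (φ n x) (Φ n x v))
    (hr : Rec φ (fun y => ‖A y‖) x) {v : E} (hv : Φ 0 x v = v) :
    A x (del φ Φ x v) = del φ Φ' x (A x v) := by
  classical
  rw [del_eq (S := h.osel.fin.toFinset ∪ h'.osel.fin.toFinset) fun a ha => by simp [ha],
    del_eq (S := h.osel.fin.toFinset ∪ h'.osel.fin.toFinset) fun a ha => by simp [ha],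
    ContinuousLinearMap.sum_apply, ContinuousLinearMap.sum_apply, map_sum]
  refine Finset.sum_congr rfl fun a _ => ?_
  rw [ContinuousLinearMap.smul_apply, ContinuousLinearMap.smul_apply, map_smul,
    h.osel.inter_eq hφ hc' h'.osel hA hr a hv]

/-- equivariant bilinear maps add the exponents -/
lemma Osel.bilin (hφ : FAct φ) (hc'' : FCoc φ Φ'' L'') (h : Osel φ Φ x π) (h' : Osel φ Φ' x π')
    (h'' : Osel φ Φ'' x π'') {B : X → E →L[ℝ] E' →L[ℝ] E''}
    (hB : ∀ (n : ℤ) u v, Φ'' n x (B x u v) = B (φ n x) (Φ n x u) (Φ' n x v))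
    (hr : Rec φ (fun y => ‖B y‖) x) {a b c : ℝ} (habc : c ≠ a + b) (u : E) (v : E') :
    π'' c (B x (π a u) (π' b v)) = 0 := by
  refine norm_le_zero_iff.1 (hr.le_zero (c := a + b - c) (sub_ne_zero.2 habc.symm) fun ε hε => ?_)
  obtain ⟨C, hC0, hC⟩ := h.up_apply hφ a (ε := ε / 3) (by positivity)
  obtain ⟨C', hC0', hC'⟩ := h'.up_apply hφ b (ε := ε / 3) (by positivity)
  obtain ⟨D, hD0, hD⟩ := h''.low_apply hc'' c (ε := ε / 3) (by positivity)
  refine ⟨D * C * C' * ‖u‖ * ‖v‖, by positivity, fun n => (hD n _).trans ?_⟩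
  rw [hB]
  refine (mul_le_mul_of_nonneg_left (((B _).le_opNorm₂ _ _).trans (mul_le_mul
    (mul_le_mul_of_nonneg_left (hC n u) (ContinuousLinearMap.opNorm_nonneg _)) (hC' n v)
    (norm_nonneg _) (mul_nonneg (ContinuousLinearMap.opNorm_nonneg _) (by positivity))))
    (by positivity)).trans_eq ?_
  rw [show (n : ℝ) * (a + b - c) + ε * |(n : ℝ)| = (-(n * c) + ε / 3 * |(n : ℝ)|) +
    ((n * a + ε / 3 * |(n : ℝ)|) + (n * b + ε / 3 * |(n : ℝ)|)) by ring,
    Real.exp_add _ (n * a + _ + _), Real.exp_add (n * a + _)]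
  ring

/-- invariant pairings -/
lemma Osel.form (hφ : FAct φ) (h : Osel φ Φ x π) (h' : Osel φ Φ' x π') {B : X → E →L[ℝ] E' →L[ℝ] ℝ}
    (hB : ∀ (n : ℤ) u v, B x u v = B (φ n x) (Φ n x u) (Φ' n x v))
    (hr : Rec φ (fun y => ‖B y‖) x) {a b : ℝ} (hab : a + b ≠ 0) (u : E) (v : E') :
    B x (π a u) (π' b v) = 0 := by
  refine norm_le_zero_iff.1 (hr.le_zero (c := a + b) hab fun ε hε => ?_)
  obtain ⟨C, hC0, hC⟩ := h.up_apply hφ a (half_pos hε)
  obtain ⟨C', hC0', hC'⟩ := h'.up_apply hφ b (half_pos hε)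
  refine ⟨C * C' * ‖u‖ * ‖v‖, by positivity, fun n => ?_⟩
  rw [hB n]
  refine (((B _).le_opNorm₂ _ _).trans (mul_le_mul
    (mul_le_mul_of_nonneg_left (hC n u) (ContinuousLinearMap.opNorm_nonneg _)) (hC' n v)
    (norm_nonneg _) (mul_nonneg (ContinuousLinearMap.opNorm_nonneg _) (by positivity)))).trans_eq ?_
  rw [show (n : ℝ) * (a + b) + ε * |(n : ℝ)| =
    (n * a + ε / 2 * |(n : ℝ)|) + (n * b + ε / 2 * |(n : ℝ)|) by ring, Real.exp_add (n * a + _)]
  ring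

section hom

/-- two-sided composition -/
noncomputable def sand (B : E' →L[ℝ] E') (C : E →L[ℝ] E) : (E →L[ℝ] E') →L[ℝ] (E →L[ℝ] E') :=
  (ContinuousLinearMap.compL ℝ E E' E' B).comp ((ContinuousLinearMap.compL ℝ E E E').flip C)

@[simp] lemma sand_apply (B : E' →L[ℝ] E') (C : E →L[ℝ] E) (A : E →L[ℝ] E') :
    sand B C A = B ∘L A ∘L C := rfl

lemma sand_mul (B B' : E' →L[ℝ] E') (C C' : E →L[ℝ] E) :
    sand B C * sand B' C' = sand (B * B') (C' * C) := rfl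

lemma sand_norm (B : E' →L[ℝ] E') (C : E →L[ℝ] E) : ‖sand B C‖ ≤ ‖B‖ * ‖C‖ := by
  refine ContinuousLinearMap.opNorm_le_bound _ (by positivity) fun A => ?_
  rw [sand_apply, mul_assoc, mul_comm ‖C‖]
  exact (ContinuousLinearMap.opNorm_comp_le _ _).trans (mul_le_mul_of_nonneg_left
    (ContinuousLinearMap.opNorm_comp_le _ _) (norm_nonneg _))

lemma sand_cont : Continuous fun p : (E' →L[ℝ] E') × (E →L[ℝ] E) => sand p.1 p.2 :=
  ((ContinuousLinearMap.compL ℝ E E' E').continuous.comp continuous_fst).clm_comp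
    ((ContinuousLinearMap.compL ℝ E E E').flip.continuous.comp continuous_snd)

lemma sand_sum {ι κ : Type*} (S : Finset ι) (T : Finset κ) (B : ι → E' →L[ℝ] E')
    (C : κ → E →L[ℝ] E) : sand (∑ i ∈ S, B i) (∑ j ∈ T, C j) = ∑ i ∈ S, ∑ j ∈ T, sand (B i) (C j) := by
  ext A v
  rw [Finset.sum_comm]
  simp [ContinuousLinearMap.sum_apply, map_sum]

/-- the cocycle on the space of linear maps -/
noncomputable def homC (φ : ℝ → X → X) (Φ : ℝ → X → E →L[ℝ] E) (Φ' : ℝ → X → E' →L[ℝ] E')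
    (t : ℝ) (x : X) : (E →L[ℝ] E') →L[ℝ] (E →L[ℝ] E') := sand (Φ' t x) (Φ (-t) (φ t x))

lemma FCoc.hom (hφ : FAct φ) (hc : FCoc φ Φ L) (hc' : FCoc φ Φ' L') :
    FCoc φ (homC φ Φ Φ') (L' + L) := by
  refine ⟨fun s t x => ?_, add_nonneg hc'.nn hc.nn, fun t x => (sand_norm _ _).trans ?_⟩
  · rw [homC, homC, homC, sand_mul, ← hc'.add,
      hc.add' (k := -(s + t)) (s := -t) (t := -s) (by ring), hφ.add, hφ.neg_add]
  · rw [add_mul, Real.exp_add]
    exact mul_le_mul (hc'.bd _ _) ((hc.bd _ _).trans_eq (by rw [abs_neg])) (norm_nonneg _)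
      (Real.exp_pos _).le

lemma FBd.hom (hφ : FAct φ) {q : E →L[ℝ] E} {q' : E' →L[ℝ] E'} {a b : ℝ} (h : FBd φ Φ x q a)
    (h' : FBd φ Φ' x q' b) : FBd φ (homC φ Φ Φ') x (sand q' q) (b - a) := fun ε hε => by
  obtain ⟨C, hC⟩ := h (ε / 2) (half_pos hε)
  obtain ⟨D, hD⟩ := h' (ε / 2) (half_pos hε)
  have hD0 : 0 ≤ D := nn_of_exp (norm_nonneg _) (hD 0 0)
  refine ⟨D * C, fun s t => ?_⟩
  rw [homC, homC, sand_mul, sand_mul, neg_neg, hφ.neg_add, ← mul_assoc]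
  refine (sand_norm _ _).trans ((mul_le_mul (hD s t) (hC t s) (norm_nonneg _)
    (by positivity)).trans_eq ?_)
  rw [mul_mul_mul_comm, ← Real.exp_add]
  congr 2
  ring

/-- the grading on the space of linear maps -/
theorem Reg.hom (hφ : FAct φ) (hc : FCoc φ Φ L) (hc' : FCoc φ Φ' L') (h : Reg φ Φ x)
    (h' : Reg φ Φ' x) : Reg φ (homC φ Φ Φ') x ∧
      del φ (homC φ Φ Φ') x = sand (del φ Φ' x) (Φ 0 x) - sand (Φ' 0 x) (del φ Φ x) := by
  set S := h.osel.fin.toFinset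
  set T := h'.osel.fin.toFinset
  have hS : ∀ a, prj φ Φ x a ≠ 0 → a ∈ S := fun a ha => by simpa [S] using ha
  have hT : ∀ a, prj φ Φ' x a ≠ 0 → a ∈ T := fun a ha => by simpa [T] using ha
  have e0 : homC φ Φ Φ' 0 x = sand (Φ' 0 x) (Φ 0 x) := by rw [homC, neg_zero, hφ.zero]
  have a1 : ∑ i : T × S, sand (prj φ Φ' x i.1) (prj φ Φ x i.2) = homC φ Φ Φ' 0 x := by
    rw [e0, ← h.osel.sum_eq hS, ← h'.osel.sum_eq hT, sand_sum, Fintype.sum_prod_type,
      ← Finset.sum_coe_sort T]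
    exact Finset.sum_congr rfl fun i _ => Finset.sum_coe_sort S fun j => sand (prj φ Φ' x i) (prj φ Φ x j)
  have a2 : ∀ i : T × S, homC φ Φ Φ' 0 x * sand (prj φ Φ' x i.1) (prj φ Φ x i.2) =
      sand (prj φ Φ' x i.1) (prj φ Φ x i.2) := fun i => by rw [e0, sand_mul, prj_left, prj_right]
  have a3 : ∀ i : T × S, sand (prj φ Φ' x i.1) (prj φ Φ x i.2) * homC φ Φ Φ' 0 x =
      sand (prj φ Φ' x i.1) (prj φ Φ x i.2) := fun i => by rw [e0, sand_mul, prj_left, prj_right]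
  have a4 : ∀ i : T × S, FBd φ (homC φ Φ Φ') x (sand (prj φ Φ' x i.1) (prj φ Φ x i.2))
      ((i.1 : ℝ) - i.2) := fun i => (h.osel.bd _).hom hφ (h'.osel.bd _)
  refine ⟨(Osel.of_fintype a1 a2 a3 a4).reg, ?_⟩
  rw [del_of_fintype hφ (hc.hom hφ hc') a1 a2 a3 a4, del_eq hS, del_eq hT, ← h.osel.sum_eq hS,
    ← h'.osel.sum_eq hT, sand_sum, sand_sum, Fintype.sum_prod_type, ← Finset.sum_sub_distrib,
    ← Finset.sum_coe_sort T]
  refine Finset.sum_congr rfl fun i _ => ?_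
  rw [← Finset.sum_sub_distrib, ← Finset.sum_coe_sort S]
  refine Finset.sum_congr rfl fun j _ => ?_
  ext A v
  simp [sub_smul]

/-- the trivial cocycle -/
lemma fcoc_one (φ : ℝ → X → X) : FCoc φ (fun _ _ => (1 : E →L[ℝ] E)) 0 :=
  ⟨fun _ _ _ => (mul_one _).symm, le_rfl, fun _ _ => by
    rw [zero_mul, Real.exp_zero]
    exact ContinuousLinearMap.norm_id_le (𝕜 := ℝ) (E := E)⟩

lemma reg_one (hφ : FAct φ) (x : X) : Reg φ (fun _ _ => (1 : E →L[ℝ] E)) x ∧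
    del φ (fun _ _ => (1 : E →L[ℝ] E)) x = 0 := by
  have a4 : ∀ _ : Unit, FBd φ (fun _ _ => (1 : E →L[ℝ] E)) x 1 0 := fun _ ε hε => ⟨1, fun s t => by
    rw [mul_one, mul_one, one_mul, mul_zero, zero_add]
    exact (ContinuousLinearMap.norm_id_le (𝕜 := ℝ) (E := E)).trans (Real.one_le_exp (by positivity))⟩
  refine ⟨(Osel.of_fintype (by simp) (by simp) (by simp) a4).reg, ?_⟩
  rw [del_of_fintype hφ (fcoc_one φ) (by simp) (by simp) (by simp) a4]
  simp

end hom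

section meas

variable [MeasurableSpace X] {μ : Measure X}

lemma meas_homC [FiniteDimensional ℝ E] [FiniteDimensional ℝ E'] (hφ : ∀ n : ℤ, Measurable (φ n))
    (hm : ∀ n : ℤ, Measurable (Φ n)) (hm' : ∀ n : ℤ, Measurable (Φ' n)) (n : ℤ) :
    Measurable (homC φ Φ Φ' n) := by
  have h1 := (hm (-n)).comp (hφ n)
  rw [Int.cast_neg] at h1
  exact sand_cont.measurable.comp ((hm' n).prodMk h1)

/-- closed conditions with a compact quantifier -/
lemma meas_ex' {Y Z : Type*} [TopologicalSpace Y] [MeasurableSpace Y] [OpensMeasurableSpace Y]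
    [TopologicalSpace Z] {A : X → Y} (hA : Measurable A) {K : Set Z} (hK : IsCompact K)
    {p : Y → Z → Prop} (hp : IsClosed {q : Y × Z | p q.1 q.2}) :
    MeasurableSet {x | ∃ z ∈ K, p (A x) z} := by
  haveI : CompactSpace K := isCompact_iff_compactSpace.1 hK
  have h1 : IsClosed {q : Y × K | p q.1 q.2} :=
    hp.preimage (f := fun q : Y × K => (q.1, (q.2 : Z)))
      (continuous_fst.prodMk (continuous_subtype_val.comp continuous_snd))
  have h2 := hA (isClosedMap_fst_of_compactSpace _ h1).measurableSet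
  have e : {x | ∃ z ∈ K, p (A x) z} = A ⁻¹' (Prod.fst '' {q : Y × K | p q.1 q.2}) := by
    ext x
    constructor
    · rintro ⟨z, hz, h⟩
      exact ⟨(A x, ⟨z, hz⟩), h, rfl⟩
    · rintro ⟨⟨y, z⟩, h, e⟩
      exact ⟨z, z.2, e ▸ h⟩
  rw [e]
  exact h2

/-- the orthogonal projection on the range of a measurable operator field is measurable -/
lemma meas_proj_range {H : Type*} [NormedAddCommGroup H] [InnerProductSpace ℝ H]
    [FiniteDimensional ℝ H] [FiniteDimensional ℝ E] {A : X → E →L[ℝ] H} (hA : Measurable A) :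
    Measurable fun x => (A x).range.starProjection := by
  refine meas_proj fun u r => ?_
  have e : {x | ∃ w ∈ (A x).range, ‖u - w‖ ≤ r} =
      ⋃ k : ℕ, {x | ∃ v ∈ Metric.closedBall (0 : E) k, ‖u - A x v‖ ≤ r} := by
    ext x
    simp only [mem_setOf_eq, mem_iUnion]
    constructor
    · rintro ⟨_, ⟨v, rfl⟩, h⟩
      obtain ⟨k, hk⟩ := exists_nat_ge ‖v‖
      exact ⟨k, v, mem_closedBall_zero_iff.2 hk, h⟩
    · rintro ⟨k, v, -, h⟩
      exact ⟨_, ⟨v, rfl⟩, h⟩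
  rw [e]
  exact MeasurableSet.iUnion fun k => meas_ex' hA (isCompact_closedBall _ _)
    (p := fun B v => ‖u - B v‖ ≤ r)
    (isClosed_le (continuous_const.sub (continuous_fst.clm_apply continuous_snd)).norm
      continuous_const)

/-- a bounded measurable projection on the range of a measurable operator field -/
lemma exists_proj_range [FiniteDimensional ℝ E] [FiniteDimensional ℝ E'] {A : X → E' →L[ℝ] E}
    (hA : Measurable A) : ∃ (p : X → E →L[ℝ] E) (K : ℝ), 0 ≤ K ∧ Measurable p ∧ (∀ x, ‖p x‖ ≤ K) ∧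
      (∀ x v, p x v ∈ (A x).range) ∧ ∀ x, ∀ v ∈ (A x).range, p x v = v := by
  let e := toEuclidean (E := E)
  let c := e.conjContinuousAlgEquiv
  obtain ⟨K, hK, h1⟩ := conj_norm c.symm
  have h2 : Measurable fun x => e.toContinuousLinearMap ∘L A x :=
    (ContinuousLinearMap.compL ℝ E' E _ e.toContinuousLinearMap).continuous.measurable.comp hA
  refine ⟨fun x => c.symm (e.toContinuousLinearMap ∘L A x).range.starProjection, K, hK,
    c.symm.continuous.measurable.comp (meas_proj_range h2), fun x => (h1 _).trans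
      (mul_le_of_le_one_right hK (Submodule.starProjection_norm_le _)), fun x v => ?_, ?_⟩
  · obtain ⟨w, hw⟩ := (e.toContinuousLinearMap ∘L A x).range.starProjection_apply_mem (e v)
    refine ⟨w, ?_⟩
    change A x w = e.symm ((e.toContinuousLinearMap ∘L A x).range.starProjection (e v))
    rw [← hw]
    simp
  · rintro x _ ⟨w, rfl⟩
    change e.symm ((e.toContinuousLinearMap ∘L A x).range.starProjection (e (A x w))) = A x w
    have h3 : e (A x w) ∈ (e.toContinuousLinearMap ∘L A x).range := ⟨w, rfl⟩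
    rw [Submodule.starProjection_eq_self_iff.2 h3]
    simp

lemma exists_inv_set {τ : ℤ → X → X} (hτ : Act τ) (hp : ∀ n, MeasurePreserving (τ n) μ μ)
    {p : X → Prop} (h : ∀ᵐ x ∂μ, p x) : ∃ G : Set X, MeasurableSet G ∧ (∀ᵐ x ∂μ, x ∈ G) ∧
      (∀ n x, τ n x ∈ G ↔ x ∈ G) ∧ ∀ x ∈ G, p x := by
  obtain ⟨N, hN1, hN2, hN3⟩ := exists_measurable_superset_of_null (ae_iff.1 h)
  refine ⟨⋂ m, τ m ⁻¹' Nᶜ, MeasurableSet.iInter fun m => (hp m).measurable hN2.compl, ?_,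
    fun n x => ?_, fun x hx => ?_⟩
  · exact (ae_orbit hp (measure_eq_zero_iff_ae_notMem.1 hN3)).mono fun x hx => mem_iInter.2 hx
  · simp only [mem_iInter, mem_preimage]
    refine ⟨fun h m => ?_, fun h m => by rw [← hτ.add]; exact h _⟩
    rw [hτ.add' (k := m) (m := m - n) (n := n) (by ring)]
    exact h _
  · have := mem_iInter.1 hx 0
    rw [mem_preimage, hτ.zero] at this
    exact not_not.1 fun e => this (hN1 e)

/-- equivariant measurable fields of subspaces are invariant under the Oseledets projections -/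
theorem prj_mem [IsFiniteMeasure μ] [FiniteDimensional ℝ E] [FiniteDimensional ℝ E'] (hφ : FAct φ)
    (hp : ∀ n : ℤ, MeasurePreserving (φ n) μ μ) (h : FCoc φ Φ L) (hm : ∀ n : ℤ, Measurable (Φ n))
    {W : X → Submodule ℝ E} {A : X → E' →L[ℝ] E} (hA : AEMeasurable A μ)
    (hW : ∀ᵐ x ∂μ, (A x).range = W x) (h0 : ∀ᵐ x ∂μ, ∀ v ∈ W x, Φ 0 x v = v)
    (hi : ∀ n : ℤ, ∀ᵐ x ∂μ, ∀ v ∈ W x, Φ n x v ∈ W (φ n x)) :
    ∀ᵐ x ∂μ, ∀ a, ∀ v ∈ W x, prj φ Φ x a v ∈ W x := by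
  classical
  obtain ⟨p, K, hK, p1, p2, p3, p4⟩ := exists_proj_range hA.measurable_mk
  obtain ⟨G, g1, g2, g3, g4⟩ := exists_inv_set hφ.act hp
    ((hW.and hA.ae_eq_mk).and (h0.and (ae_all_iff.2 hi)))
  have q1 : ∀ x ∈ G, ∀ v, p x v ∈ W x := fun x hx v => by
    rw [← (g4 x hx).1.1, (g4 x hx).1.2]
    exact p3 x v
  have q2 : ∀ x ∈ G, ∀ v ∈ W x, p x v = v := fun x hx v hv => by
    rw [← (g4 x hx).1.1, (g4 x hx).1.2] at hv
    exact p4 x v hv
  let Ψ : ℤ → X → E →L[ℝ] E := fun n x => if x ∈ G then Φ n x * p x else 0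
  have hΨ : Coc (fun n : ℤ => φ n) Ψ (L + K) := by
    refine ⟨fun m n x => ?_, add_nonneg h.nn hK, fun n x => ?_⟩
    · by_cases hx : x ∈ G
      · have hx' := (g3 n x).2 hx
        simp only [Ψ, if_pos hx, if_pos hx']
        ext v
        simp only [ContinuousLinearMap.mul_apply]
        rw [q2 _ hx' _ ((g4 x hx).2.2 n _ (q1 x hx v)), Int.cast_add, h.add,
          ContinuousLinearMap.mul_apply]
      · simp only [Ψ, if_neg hx, mul_zero]
    · simp only [Ψ]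
      split_ifs
      · rw [add_mul, Real.exp_add]
        refine (norm_mul_le _ _).trans (mul_le_mul (h.bd _ _) ((p2 x).trans ?_) (norm_nonneg _)
          (Real.exp_pos _).le)
        have := Real.add_one_le_exp (K * (|(n : ℝ)| + 2))
        nlinarith [mul_nonneg hK (abs_nonneg (n : ℝ))]
      · rw [norm_zero]
        positivity
  obtain ⟨d, P, lam, -, -, -, -, h5⟩ := met' hφ.act hp hΨ fun n =>
    Measurable.ite g1 ((hm n).mul p1) measurable_const
  filter_upwards [h5, g2, ae_reg hφ hp h hm] with x g hx hr a v hv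
  have g0 := g 0
  simp only [Int.cast_zero, hφ.zero] at g0
  have e0 : ∀ n : ℤ, Ψ n x = Φ n x * p x := fun n => if_pos hx
  have e1 : ∀ u, Ψ 0 x u = p x u := fun u => by
    rw [e0, ContinuousLinearMap.mul_apply, Int.cast_zero, (g4 x hx).2.1 _ (q1 x hx u)]
  have m1 : ∀ i, P i x v ∈ W x := fun i => by
    rw [← g0.left i, ContinuousLinearMap.mul_apply, e1]
    exact q1 x hx _
  have z1 : ∀ i b, b ≠ lam i x → prj φ Φ x b (P i x v) = 0 := fun i b hb =>
    hr.osel.zero_of_growth h (fun ε hε => by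
      obtain ⟨C, hC⟩ := g0.bd i ε hε
      refine ⟨C * ‖v‖, fun n => ?_⟩
      have := ContinuousLinearMap.le_of_opNorm_le _ (hC 0 n) v
      simp only [Int.cast_zero, hφ.zero, abs_zero, add_zero, e0, ContinuousLinearMap.mul_apply,
        q2 x hx _ (m1 i)] at this
      rwa [mul_right_comm]) hb
  rw [← q2 x hx v hv, ← e1, ← g0.sum, ContinuousLinearMap.sum_apply, map_sum]
  refine Submodule.sum_mem _ fun i _ => ?_
  by_cases hb : a = lam i x
  · rw [hb, hr.osel.eq_of_zero (z1 i), (g4 x hx).2.1 _ (m1 i)]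
    exact m1 i
  · rw [z1 i a hb]
    exact Submodule.zero_mem _

theorem del_mem [IsFiniteMeasure μ] [FiniteDimensional ℝ E] [FiniteDimensional ℝ E'] (hφ : FAct φ)
    (hp : ∀ n : ℤ, MeasurePreserving (φ n) μ μ) (h : FCoc φ Φ L) (hm : ∀ n : ℤ, Measurable (Φ n))
    {W : X → Submodule ℝ E} {A : X → E' →L[ℝ] E} (hA : AEMeasurable A μ)
    (hW : ∀ᵐ x ∂μ, (A x).range = W x) (h0 : ∀ᵐ x ∂μ, ∀ v ∈ W x, Φ 0 x v = v)
    (hi : ∀ n : ℤ, ∀ᵐ x ∂μ, ∀ v ∈ W x, Φ n x v ∈ W (φ n x)) :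
    ∀ᵐ x ∂μ, ∀ v ∈ W x, del φ Φ x v ∈ W x := by
  filter_upwards [prj_mem hφ hp h hm hA hW h0 hi] with x hx v hv
  rw [del_eq (S := (prj_fin (φ := φ) (Φ := Φ) x).toFinset) fun a ha => by simpa using ha,
    ContinuousLinearMap.sum_apply]
  exact Submodule.sum_mem _ fun a _ => Submodule.smul_mem _ _ (hx a v hv)

end meas

end Vale.Agent.P207Z.MET
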