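import Vale.Agent.P207Z.MET.Dens

/-!
# Linear cocycles over an action of the integers: definitions and first facts
-/

set_option linter.all false

open MeasureTheory Filter Topology Set

namespace Vale.Agent.P207Z.MET

variable {X : Type*} {E : Type*} [NormedAddCommGroup E] [NormedSpace ℝ E]

/-- actions of the integers -/
structure Act (τ : ℤ → X → X) : Prop where
  zero : ∀ x, τ 0 x = x
  add : ∀ m n x, τ (m + n) x = τ m (τ n x)

/-- bounded cocycles; `Φ 0 x` is a projection on the fibre over `x` -/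
structure Coc (τ : ℤ → X → X) (Φ : ℤ → X → E →L[ℝ] E) (L : ℝ) : Prop where
  add : ∀ m n x, Φ (m + n) x = Φ m (τ n x) * Φ n x
  nn : 0 ≤ L
  bd : ∀ (n : ℤ) x, ‖Φ n x‖ ≤ Real.exp (L * (|(n : ℝ)| + 2))

/-- growth of exponent `l` along the orbit of `x`, tempered -/
def Bd (τ : ℤ → X → X) (Ψ : ℤ → X → E →L[ℝ] E) (x : X) (l : ℝ) : Prop :=
  ∀ ε : ℝ, 0 < ε → ∃ C : ℝ, ∀ m n : ℤ,
    ‖Ψ n (τ m x)‖ ≤ C * Real.exp (n * l + ε * (|(n : ℝ)| + |(m : ℝ)|))

/-- the Oseledets splitting at the point `x` -/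
structure Good {d : ℕ} (τ : ℤ → X → X) (Φ : ℤ → X → E →L[ℝ] E) (P : Fin d → X → E →L[ℝ] E)
    (lam : Fin d → X → ℝ) (x : X) : Prop where
  sum : ∑ i, P i x = Φ 0 x
  idem : ∀ i, P i x * P i x = P i x
  orth : ∀ i j, i ≠ j → P i x * P j x = 0
  eqv : ∀ n i, Φ n x * P i x = P i (τ n x) * Φ n x
  ord : ∀ i j, i < j → P j x ≠ 0 → P i x ≠ 0 ∧ lam i x < lam j x
  bd : ∀ i, Bd τ (fun n y => Φ n y * P i y) x (lam i x)

variable {τ : ℤ → X → X} {Φ : ℤ → X → E →L[ℝ] E} {L : ℝ}

lemma Act.iter (h : Act τ) (k : ℤ) (i : ℕ) (x : X) : (τ k)^[i] x = τ (i * k) x := by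
  induction i with
  | zero => simp [h.zero]
  | succ i ih =>
    rw [Function.iterate_succ_apply', ih, ← h.add]
    congr 1
    push_cast
    ring

lemma Act.add' (h : Act τ) {k m n : ℤ} (e : k = m + n) (x : X) : τ k x = τ m (τ n x) := by
  rw [e, h.add]

/-- a cocycle is bounded as soon as the maps of the times `1` and `-1` are -/
lemma Coc.of_one (hL : 0 ≤ L) (add : ∀ m n x, Φ (m + n) x = Φ m (τ n x) * Φ n x)
    (h1 : ∀ x, ‖Φ 1 x‖ ≤ Real.exp L) (h2 : ∀ x, ‖Φ (-1) x‖ ≤ Real.exp L) : Coc τ Φ L := by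
  have h0 : ∀ x, ‖Φ 0 x‖ ≤ Real.exp (L * 2) := fun x => by
    rw [show (0 : ℤ) = -1 + 1 by norm_num, add, show L * 2 = L + L by ring, Real.exp_add]
    exact (norm_mul_le _ _).trans (mul_le_mul (h2 _) (h1 _) (norm_nonneg _) (Real.exp_pos _).le)
  refine ⟨add, hL, fun n => ?_⟩
  induction n using Int.induction_on with
  | zero => simpa using h0
  | succ n ih =>
    intro x
    rw [add_comm (n : ℤ) 1, add]
    refine (norm_mul_le _ _).trans ((mul_le_mul (h1 _) (ih _) (norm_nonneg _)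
      (Real.exp_pos _).le).trans_eq ?_)
    rw [← Real.exp_add]
    congr 1
    push_cast
    rw [abs_of_nonneg (by positivity), abs_of_nonneg (by positivity)]
    ring
  | pred n ih =>
    intro x
    rw [show -(n : ℤ) - 1 = -1 + -n by ring, add]
    refine (norm_mul_le _ _).trans ((mul_le_mul (h2 _) (ih _) (norm_nonneg _)
      (Real.exp_pos _).le).trans_eq ?_)
    rw [← Real.exp_add]
    congr 1
    have : (0 : ℝ) ≤ n := Nat.cast_nonneg n
    push_cast
    rw [abs_of_nonpos (by linarith), abs_of_nonpos (by linarith)]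
    ring

lemma Coc.add' (h : Coc τ Φ L) {k m n : ℤ} (e : k = m + n) (x : X) :
    Φ k x = Φ m (τ n x) * Φ n x := by
  rw [e, h.add]

lemma Coc.zero_mul (h : Coc τ Φ L) (n : ℤ) (x : X) : Φ 0 (τ n x) * Φ n x = Φ n x :=
  (h.add' (zero_add n).symm x).symm

lemma Coc.mul_zero (h : Coc τ Φ L) (hτ : Act τ) (n : ℤ) (x : X) : Φ n x * Φ 0 x = Φ n x := by
  have := h.add' (add_zero n).symm x
  rw [hτ.zero] at this
  exact this.symm

lemma Coc.neg_mul (h : Coc τ Φ L) (n : ℤ) (x : X) : Φ (-n) (τ n x) * Φ n x = Φ 0 x :=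
  (h.add' (neg_add_cancel n).symm x).symm

lemma Coc.mul_neg (h : Coc τ Φ L) (hτ : Act τ) (n : ℤ) (x : X) :
    Φ n x * Φ (-n) (τ n x) = Φ 0 (τ n x) := by
  have := h.add' (add_neg_cancel n).symm (τ n x)
  rw [← hτ.add, neg_add_cancel, hτ.zero] at this
  exact this.symm

lemma Coc.apply_le (h : Coc τ Φ L) (n : ℤ) (x : X) (v : E) :
    ‖Φ n x v‖ ≤ Real.exp (L * (|(n : ℝ)| + 2)) * ‖v‖ :=
  (Φ n x).le_of_opNorm_le (h.bd n x) v

lemma Good.left {d : ℕ} {P : Fin d → X → E →L[ℝ] E} {lam : Fin d → X → ℝ} {x : X}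
    (g : Good τ Φ P lam x) (i : Fin d) : Φ 0 x * P i x = P i x := by
  rw [← g.sum, Finset.sum_mul, Finset.sum_eq_single i (fun j _ hj => g.orth j i hj) (by simp),
    g.idem]

lemma Good.right {d : ℕ} {P : Fin d → X → E →L[ℝ] E} {lam : Fin d → X → ℝ} {x : X}
    (g : Good τ Φ P lam x) (i : Fin d) : P i x * Φ 0 x = P i x := by
  rw [← g.sum, Finset.mul_sum, Finset.sum_eq_single i (fun j _ hj => g.orth i j hj.symm) (by simp),
    g.idem]

section meas

variable [MeasurableSpace X] {μ : Measure X}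

lemma ae_orbit (hm : ∀ n, MeasurePreserving (τ n) μ μ) {p : X → Prop} (h : ∀ᵐ x ∂μ, p x) :
    ∀ᵐ x ∂μ, ∀ n, p (τ n x) :=
  ae_all_iff.2 fun n => (hm n).quasiMeasurePreserving.ae h

variable [FiniteDimensional ℝ E]

/-- closed conditions with a compact quantifier are measurable -/
lemma meas_ex {K : Set E} (hK : IsCompact K) {A : ℕ → X → E →L[ℝ] E} (hA : ∀ n, Measurable (A n))
    {c : ℕ → X → ℝ} (hc : ∀ n, Measurable (c n)) (s : Set ℕ) :
    MeasurableSet {x | ∃ w ∈ K, A 0 x w = w ∧ ∀ n ∈ s, ‖A n x w‖ ≤ c n x} := by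
  haveI : CompactSpace K := isCompact_iff_compactSpace.1 hK
  let Z : Set (((ℕ → E →L[ℝ] E) × (ℕ → ℝ)) × K) :=
    {q | q.1.1 0 q.2 = q.2 ∧ ∀ n ∈ s, ‖q.1.1 n q.2‖ ≤ q.1.2 n}
  have hap : ∀ n, Continuous fun q : ((ℕ → E →L[ℝ] E) × (ℕ → ℝ)) × K => q.1.1 n q.2 := fun n =>
    ((continuous_apply n).comp (continuous_fst.comp continuous_fst)).clm_apply
      (continuous_subtype_val.comp continuous_snd)
  have hZ : IsClosed Z := by
    refine (isClosed_eq (hap 0) (continuous_subtype_val.comp continuous_snd)).inter ?_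
    have : {q : ((ℕ → E →L[ℝ] E) × (ℕ → ℝ)) × K | ∀ n ∈ s, ‖q.1.1 n q.2‖ ≤ q.1.2 n}
        = ⋂ n ∈ s, {q | ‖q.1.1 n q.2‖ ≤ q.1.2 n} := by
      ext q
      simp
    change IsClosed {q : ((ℕ → E →L[ℝ] E) × (ℕ → ℝ)) × K | ∀ n ∈ s, ‖q.1.1 n q.2‖ ≤ q.1.2 n}
    rw [this]
    exact isClosed_biInter fun n _ => isClosed_le (hap n).norm
      ((continuous_apply n).comp (continuous_snd.comp continuous_fst))
  have h1 : MeasurableSet (Prod.fst '' Z) := (isClosedMap_fst_of_compactSpace Z hZ).measurableSet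
  have h2 : Measurable fun x => ((fun n => A n x, fun n => c n x) :
      (ℕ → E →L[ℝ] E) × (ℕ → ℝ)) := (measurable_pi_lambda _ hA).prodMk (measurable_pi_lambda _ hc)
  have h3 := h2 h1
  have e : {x | ∃ w ∈ K, A 0 x w = w ∧ ∀ n ∈ s, ‖A n x w‖ ≤ c n x} =
      (fun x => ((fun n => A n x, fun n => c n x) : (ℕ → E →L[ℝ] E) × (ℕ → ℝ))) ⁻¹'
        (Prod.fst '' Z) := by
    ext x
    constructor
    · rintro ⟨w, hw, h⟩
      exact ⟨((fun n => A n x, fun n => c n x), ⟨w, hw⟩), h, rfl⟩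
    · rintro ⟨⟨q, w⟩, h, rfl⟩
      exact ⟨w, w.2, h⟩
  rw [e]
  exact h3

end meas

section inner

variable {E : Type*} [NormedAddCommGroup E] [InnerProductSpace ℝ E] [FiniteDimensional ℝ E]
  [MeasurableSpace X]

/-- an operator field is measurable when its matrix entries are -/
lemma meas_of_inner {A : X → E →L[ℝ] E} (h : ∀ u w, Measurable fun x => inner ℝ u (A x w)) :
    Measurable A := by
  let b := stdOrthonormalBasis ℝ E
  have e : A = fun x => ∑ i, ∑ j, inner ℝ (b i) (A x (b j)) •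
      ((innerSL ℝ (b j)).smulRight (b i)) := by
    funext x
    ext v
    simp only [ContinuousLinearMap.sum_apply, ContinuousLinearMap.smul_apply,
      ContinuousLinearMap.smulRight_apply, innerSL_apply_apply]
    rw [← b.sum_repr' (A x v)]
    refine Finset.sum_congr rfl fun i _ => ?_
    conv_lhs => rw [← b.sum_repr' v]
    rw [map_sum, inner_sum, Finset.sum_smul]
    refine Finset.sum_congr rfl fun j _ => ?_
    rw [map_smul, inner_smul_right, smul_smul, mul_comm]
  rw [e]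
  exact Finset.measurable_fun_sum _ fun i _ => Finset.measurable_fun_sum _ fun j _ =>
    (h _ _).smul_const _

/-- measurability of the orthogonal projection on a field of subspaces -/
lemma meas_proj {W : X → Submodule ℝ E}
    (h : ∀ u r, MeasurableSet {x | ∃ w ∈ W x, ‖u - w‖ ≤ r}) :
    Measurable fun x => (W x).starProjection := by
  have h1 : ∀ u, Measurable fun x => ‖u - (W x).starProjection u‖ := fun u => by
    refine measurable_of_Iic fun r => ?_
    have e : (fun x => ‖u - (W x).starProjection u‖) ⁻¹' Iic r = {x | ∃ w ∈ W x, ‖u - w‖ ≤ r} := by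
      ext x
      constructor
      · intro hx
        exact ⟨_, (W x).starProjection_apply_mem u, hx⟩
      · rintro ⟨w, hw, hr⟩
        refine le_trans ?_ hr
        dsimp only
        rw [Submodule.starProjection_minimal]
        exact ciInf_le ⟨0, by rintro _ ⟨y, rfl⟩; exact norm_nonneg _⟩ (⟨w, hw⟩ : W x)
    rw [e]
    exact h u r
  refine meas_of_inner fun u w => ?_
  have e : (fun x => inner ℝ u ((W x).starProjection w)) = fun x => inner ℝ u w -
      (‖(u + w) - (W x).starProjection (u + w)‖ ^ 2 - ‖(u - w) - (W x).starProjection (u - w)‖ ^ 2)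
        / 4 := by
    funext x
    have e1 : ∀ v, v - (W x).starProjection v = (W x)ᗮ.starProjection v := fun v =>
      (Submodule.starProjection_orthogonal_val v).symm
    rw [e1, e1, map_add, map_sub, norm_add_sq_real, norm_sub_sq_real]
    have e2 : inner ℝ ((W x)ᗮ.starProjection u) ((W x)ᗮ.starProjection w)
        = inner ℝ u w - inner ℝ u ((W x).starProjection w) := by
      rw [Submodule.inner_starProjection_left_eq_right, Submodule.starProjection_eq_self_iff.2
        (Submodule.starProjection_apply_mem _ _), ← e1, inner_sub_right]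
    rw [e2]
    ring
  rw [e]
  exact measurable_const.sub ((((h1 _).pow_const 2).sub ((h1 _).pow_const 2)).div_const 4)

end inner

end Vale.Agent.P207Z.MET
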