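import Mathlib
import Vale.Agent.P099.R2.H278.Birk

/-!
# Density of the visits to sets of small measure, returns to sets of large measure
-/

set_option linter.all false

open MeasureTheory Filter Topology Set

namespace Vale.Agent.P207Z.MET

open Vale.Agent.P099.R2.H278

variable {X : Type*} [MeasurableSpace X] {μ : Measure X} [IsFiniteMeasure μ]

/-- the number of visits of `B` before the time `j` -/
noncomputable def cnt (T : X → X) (B : Set X) (j : ℕ) (x : X) : ℝ :=
  ∑ i ∈ Finset.range j, B.indicator (fun _ => (1 : ℝ)) (T^[i] x)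

lemma weak_max {T : X → X} (hT : MeasurePreserving T μ μ) {B : Set X} (hB : MeasurableSet B)
    {δ : ℝ} (hδ : 0 < δ) :
    ∃ S : Set X, δ * μ.real S ≤ μ.real B ∧ ∀ x, x ∉ S → ∀ j : ℕ, cnt T B j x ≤ δ * j := by
  set f : X → ℝ := fun x => B.indicator (fun _ => (1 : ℝ)) x - δ with hf
  have hfm : Measurable f := (measurable_const.indicator hB).sub_const δ
  have hi1 : Integrable (B.indicator fun _ => (1 : ℝ)) μ := (integrable_const _).indicator hB
  have hfi : Integrable f μ := hi1.sub (integrable_const _)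
  set S : ℕ → Set X := fun k => {x | 0 < maxS T f (k + 1) x} with hS
  have hSm : ∀ k, MeasurableSet (S k) := fun k =>
    measurableSet_lt measurable_const (measurable_maxS hT.measurable hfm (k + 1))
  have hmono : Monotone S := fun a b hab x hx =>
    lt_of_lt_of_le hx (maxS_mono T f x (Nat.succ_le_succ hab))
  have hk : ∀ k, δ * μ.real (S k) ≤ μ.real B := by
    intro k
    have h1 := maximal_ergodic_aux hT hfm hfi k
    have h2 : ∫ x in S k, f x ∂μ = ∫ x in S k, B.indicator (fun _ => (1 : ℝ)) x ∂μ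
        - ∫ x in S k, δ ∂μ := integral_sub hi1.integrableOn (integrable_const _)
    have h3 : ∫ x in S k, B.indicator (fun _ => (1 : ℝ)) x ∂μ ≤ μ.real B := by
      refine (setIntegral_le_integral hi1 (Eventually.of_forall fun x =>
        indicator_nonneg (fun _ _ => zero_le_one) x)).trans_eq ?_
      rw [integral_indicator hB]
      simp
    have h4 : ∫ x in S k, δ ∂μ = δ * μ.real (S k) := by
      rw [setIntegral_const, smul_eq_mul, mul_comm]
    change 0 ≤ ∫ x in S k, f x ∂μ at h1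
    linarith
  refine ⟨⋃ k, S k, ?_, fun x hx j => ?_⟩
  · have h1 : Tendsto (fun k => μ (S k)) atTop (𝓝 (μ (⋃ k, S k))) :=
      tendsto_measure_iUnion_atTop hmono
    have h2 : Tendsto (fun k => δ * μ.real (S k)) atTop (𝓝 (δ * μ.real (⋃ k, S k))) :=
      ((ENNReal.tendsto_toReal (measure_ne_top _ _)).comp h1).const_mul δ
    exact le_of_tendsto' h2 hk
  · have h1 : ¬ 0 < maxS T f (j + 1) x := fun h => hx (mem_iUnion.2 ⟨j, h⟩)
    have h2 := birkhoffSum_le_maxS T f j x
    have h3 : maxS T f j x ≤ maxS T f (j + 1) x := maxS_le_succ T f j x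
    have h4 : birkhoffSum T f j x = cnt T B j x - δ * j := by
      simp [birkhoffSum, cnt, hf, Finset.sum_sub_distrib, mul_comm]
    linarith [not_lt.1 h1]

/-- the density lemma -/
theorem dens {T : X → X} (hT : MeasurePreserving T μ μ) {G : ℕ → Set X}
    (hG : ∀ N, MeasurableSet (G N)) (hm : Monotone G) (hae : ∀ᵐ x ∂μ, ∃ N, x ∈ G N)
    {δ : ℝ} (hδ : 0 < δ) :
    ∀ᵐ x ∂μ, ∃ N, ∀ j : ℕ, cnt T (G N)ᶜ j x ≤ δ * j := by
  choose S hS1 hS2 using fun N => weak_max hT (hG N).compl hδ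
  have h0 : Tendsto (fun N => μ (G N)ᶜ) atTop (𝓝 (μ (⋂ N, (G N)ᶜ))) :=
    tendsto_measure_iInter_atTop (fun N => (hG N).compl.nullMeasurableSet)
      (fun a b hab => compl_subset_compl.2 (hm hab)) ⟨0, measure_ne_top _ _⟩
  have h1 : μ (⋂ N, (G N)ᶜ) = 0 := by
    refine measure_mono_null (fun x hx => ?_) (ae_iff.1 hae)
    rintro ⟨N, hN⟩
    exact mem_iInter.1 hx N hN
  rw [h1] at h0
  have h2 : Tendsto (fun N => μ.real (G N)ᶜ) atTop (𝓝 0) := by
    have := (ENNReal.tendsto_toReal ENNReal.zero_ne_top).comp h0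
    rw [ENNReal.toReal_zero] at this
    exact this
  have h3 : δ * μ.real (⋂ N, S N) ≤ 0 := ge_of_tendsto' h2 fun N =>
    le_trans (mul_le_mul_of_nonneg_left (measureReal_mono (iInter_subset _ N)) hδ.le) (hS1 N)
  have h4 : μ (⋂ N, S N) = 0 := by
    rw [← measureReal_eq_zero_iff]
    exact le_antisymm (by nlinarith [measureReal_nonneg (μ := μ) (s := ⋂ N, S N)]) measureReal_nonneg
  refine (measure_eq_zero_iff_ae_notMem.1 h4).mono fun x hx => ?_
  rw [mem_iInter, not_forall] at hx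
  obtain ⟨N, hN⟩ := hx
  exact ⟨N, hS2 N x hN⟩

/-- the lemma on returns -/
theorem ret {T : X → X} (hT : MeasurePreserving T μ μ) {G : ℕ → Set X}
    (hG : ∀ N, MeasurableSet (G N)) (hm : Monotone G) (hae : ∀ᵐ x ∂μ, ∃ N, x ∈ G N) :
    ∀ᵐ x ∂μ, ∃ N, ∀ j : ℕ, ∃ i : ℕ, j ≤ i ∧ i ≤ 2 * j ∧ T^[i] x ∈ G N := by
  filter_upwards [dens hT hG hm hae (δ := 1 / 2) (by norm_num)] with x hx
  obtain ⟨N, hN⟩ := hx
  refine ⟨N, fun j => ?_⟩
  by_contra hc
  push Not at hc
  have h1 := hN (2 * j + 1)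
  have h2 : ∑ i ∈ Finset.Ico j (2 * j + 1), (G N)ᶜ.indicator (fun _ => (1 : ℝ)) (T^[i] x)
      ≤ cnt T (G N)ᶜ (2 * j + 1) x := by
    refine Finset.sum_le_sum_of_subset_of_nonneg (fun i hi => ?_) fun i _ _ =>
      indicator_nonneg (fun _ _ => zero_le_one) _
    rw [Finset.mem_Ico] at hi
    exact Finset.mem_range.2 hi.2
  have h3 : ∑ i ∈ Finset.Ico j (2 * j + 1), (G N)ᶜ.indicator (fun _ => (1 : ℝ)) (T^[i] x)
      = ∑ i ∈ Finset.Ico j (2 * j + 1), (1 : ℝ) := by
    refine Finset.sum_congr rfl fun i hi => ?_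
    rw [Finset.mem_Ico] at hi
    exact indicator_of_mem (hc i hi.1 (by omega)) _
  rw [h3, Finset.sum_const, Nat.card_Ico, show 2 * j + 1 - j = j + 1 by omega] at h2
  push_cast at h1
  simp only [nsmul_eq_mul, mul_one] at h2
  push_cast at h2
  linarith

end Vale.Agent.P207Z.MET
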