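import Vale.Agent.P207Z.MET.Flow

/-!
# The multiplicative ergodic theorem for flows, Pesin sets, recurrence
-/

set_option linter.all false

open MeasureTheory Filter Topology Set

namespace Vale.Agent.P207Z.MET

variable {X : Type*} {E : Type*} [NormedAddCommGroup E] [NormedSpace ℝ E]

section conj

variable {F : Type*} [NormedAddCommGroup F] [NormedSpace ℝ F] {τ : ℤ → X → X}

lemma conj_norm (c : (E →L[ℝ] E) ≃A[ℝ] (F →L[ℝ] F)) : ∃ K : ℝ, 0 ≤ K ∧ ∀ A, ‖c A‖ ≤ K * ‖A‖ :=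
  ⟨‖(c.toContinuousLinearEquiv : (E →L[ℝ] E) →L[ℝ] (F →L[ℝ] F))‖,
    ContinuousLinearMap.opNorm_nonneg _, fun A =>
    (c.toContinuousLinearEquiv : (E →L[ℝ] E) →L[ℝ] (F →L[ℝ] F)).le_opNorm A⟩

lemma Coc.conj {Φ : ℤ → X → E →L[ℝ] E} {L : ℝ} (h : Coc τ Φ L)
    (c : (E →L[ℝ] E) ≃A[ℝ] (F →L[ℝ] F)) : ∃ L', Coc τ (fun n x => c (Φ n x)) L' := by
  obtain ⟨K, hK, h1⟩ := conj_norm c
  refine ⟨L + K, fun m n x => by rw [h.add, map_mul], add_nonneg h.nn hK, fun n x => ?_⟩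
  refine (h1 _).trans ?_
  rw [add_mul, add_comm (L * _), Real.exp_add]
  refine mul_le_mul ?_ (h.bd n x) (norm_nonneg _) (Real.exp_pos _).le
  have := Real.add_one_le_exp (K * (|(n : ℝ)| + 2))
  nlinarith [mul_nonneg hK (abs_nonneg (n : ℝ))]

lemma Good.conj {Φ : ℤ → X → E →L[ℝ] E} (c : (E →L[ℝ] E) ≃A[ℝ] (F →L[ℝ] F)) {d : ℕ}
    {P : Fin d → X → F →L[ℝ] F} {lam : Fin d → X → ℝ} {x : X}
    (g : Good τ (fun n x => c (Φ n x)) P lam x) : Good τ Φ (fun i y => c.symm (P i y)) lam x := by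
  obtain ⟨K, hK, h1⟩ := conj_norm c.symm
  refine ⟨?_, fun i => ?_, fun i j hij => ?_, fun n i => ?_, fun i j hij hj => ?_, fun i ε hε => ?_⟩
  · rw [← map_sum, g.sum, c.symm_apply_apply]
  · rw [← map_mul, g.idem]
  · rw [← map_mul, g.orth i j hij, map_zero]
  · have := congrArg c.symm (g.eqv n i)
    simpa only [map_mul, c.symm_apply_apply] using this
  · obtain ⟨h2, h3⟩ := g.ord i j hij fun e => hj (by simp only [e, map_zero])
    exact ⟨fun e => h2 (c.symm.map_eq_zero_iff.1 e), h3⟩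
  · obtain ⟨C, hC⟩ := g.bd i ε hε
    refine ⟨K * C, fun m n => ?_⟩
    have := (h1 _).trans (mul_le_mul_of_nonneg_left (hC m n) hK)
    rw [mul_assoc]
    simpa only [map_mul, c.symm_apply_apply] using this

end conj

variable {φ : ℝ → X → X} {Φ : ℝ → X → E →L[ℝ] E} {L : ℝ} {x : X}

/-- from integer times to real times -/
lemma real_of_int (hφ : FAct φ) (hc : FCoc φ Φ L) {p : X → E →L[ℝ] E} {l ε C : ℝ} (hε : 0 ≤ ε)
    (he : ∀ m : ℤ, Φ m x * p x = p (φ m x) * Φ m x) (hr : ∀ m : ℤ, p (φ m x) * Φ 0 (φ m x) = p (φ m x))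
    (h : ∀ m n : ℤ, ‖Φ n (φ m x) * p (φ m x)‖ ≤ C * Real.exp (n * l + ε * (|(n : ℝ)| + |(m : ℝ)|)))
    (s t : ℝ) : ‖Φ t x * p x * Φ (-s) (φ s x)‖ ≤
      C * Real.exp (6 * L + |l| + 3 * ε) * Real.exp ((t - s) * l + 2 * ε * (|s| + |t|)) := by
  have hC0 : 0 ≤ C := nn_of_exp (norm_nonneg _) (h 0 0)
  have hL := hc.nn
  set m := ⌊s⌋ with hm
  set k := ⌊t⌋ with hk
  have s1 : (m : ℝ) ≤ s := Int.floor_le s
  have s2 : s < m + 1 := Int.lt_floor_add_one s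
  have t1 : (k : ℝ) ≤ t := Int.floor_le t
  have t2 : t < k + 1 := Int.lt_floor_add_one t
  have e1 : φ (m - s) (φ s x) = φ m x := (hφ.add' (by ring) x).symm
  have e : Φ t x * p x * Φ (-s) (φ s x) = Φ (t - k) (φ k x) *
      (Φ ((k - m : ℤ) : ℝ) (φ m x) * p (φ m x)) * Φ (m - s) (φ s x) := by
    rw [hc.add' (k := t) (s := t - k) (t := k) (by ring),
      hc.add' (k := (k : ℝ)) (s := ((k - m : ℤ) : ℝ)) (t := m) (by push_cast; ring),
      hc.add' (k := -s) (s := -m) (t := m - s) (by ring), e1, ← hr m, ← hc.mul_neg hφ,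
      ← mul_assoc (p _), ← he]
    noncomm_ring
  have b1 : ∀ u y, |u| ≤ 1 → ‖Φ u y‖ ≤ Real.exp (3 * L) := fun u y hu =>
    (hc.bd u y).trans (Real.exp_le_exp.2 (by nlinarith))
  rw [e]
  refine (norm_mul_le _ _).trans ((mul_le_mul ((norm_mul_le _ _).trans (mul_le_mul
    (b1 _ _ (abs_le.2 ⟨by linarith, by linarith⟩)) (h m (k - m)) (norm_nonneg _)
    (Real.exp_pos _).le)) (b1 _ _ (abs_le.2 ⟨by linarith, by linarith⟩)) (norm_nonneg _)
    (by positivity)).trans ?_)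
  rw [mul_left_comm, mul_assoc, mul_assoc C, ← Real.exp_add, ← Real.exp_add, ← Real.exp_add]
  refine mul_le_mul_of_nonneg_left (Real.exp_le_exp.2 ?_) hC0
  push_cast
  have a1 : |(m : ℝ)| ≤ |s| + 1 := abs_le.2 ⟨by linarith [neg_abs_le s], by linarith [le_abs_self s]⟩
  have a2 : |(k : ℝ)| ≤ |t| + 1 := abs_le.2 ⟨by linarith [neg_abs_le t], by linarith [le_abs_self t]⟩
  have a3 : |(k : ℝ) - m| ≤ |(k : ℝ)| + |(m : ℝ)| := abs_sub _ _
  have a4 : ((k : ℝ) - m - (t - s)) * l ≤ |l| := by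
    refine (le_abs_self _).trans ?_
    rw [abs_mul]
    exact mul_le_of_le_one_left (abs_nonneg _) (abs_le.2 ⟨by linarith, by linarith⟩)
  have a5 : ε * (|(k : ℝ) - m| + |(m : ℝ)|) ≤ ε * (2 * (|s| + |t|) + 3) :=
    mul_le_mul_of_nonneg_left (by linarith [abs_nonneg t]) hε
  nlinarith

lemma fbd_of_good (hφ : FAct φ) (hc : FCoc φ Φ L) {d : ℕ} {P : Fin d → X → E →L[ℝ] E}
    {lam : Fin d → X → ℝ}
    (g : ∀ m : ℤ, Good (fun n : ℤ => φ n) (fun n : ℤ => Φ n) P lam (φ m x)) (i : Fin d) :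
    FBd φ Φ x (P i x) (lam i x) := fun ε hε => by
  have g0 := g 0
  simp only [Int.cast_zero, hφ.zero] at g0
  obtain ⟨C, hC⟩ := g0.bd i (ε / 2) (half_pos hε)
  refine ⟨C * Real.exp (6 * L + |lam i x| + 3 * (ε / 2)), fun s t =>
    (real_of_int hφ hc (half_pos hε).le (fun m => g0.eqv m i)
    (fun m => by simpa using (g m).right i) hC s t).trans_eq ?_⟩
  rw [show 2 * (ε / 2) = ε by ring]

lemma osel_of_good (hφ : FAct φ) (hc : FCoc φ Φ L) {d : ℕ} {P : Fin d → X → E →L[ℝ] E}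
    {lam : Fin d → X → ℝ}
    (g : ∀ m : ℤ, Good (fun n : ℤ => φ n) (fun n : ℤ => Φ n) P lam (φ m x)) :
    Osel φ Φ x fun a => ∑ i, if lam i x = a then P i x else 0 := by
  have g0 := g 0
  simp only [Int.cast_zero, hφ.zero] at g0
  exact Osel.of_fintype (by simpa using g0.sum) (fun i => by simpa using g0.left i)
    (fun i => by simpa using g0.right i) (fbd_of_good hφ hc g)

/-- recurrence of a function along the integer times -/
def Rec (φ : ℝ → X → X) (f : X → ℝ) (x : X) : Prop :=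
  ∃ K : ℝ, ∀ N : ℕ, (∃ n : ℕ, N ≤ n ∧ f (φ n x) ≤ K) ∧ ∃ n : ℕ, N ≤ n ∧ f (φ (-n) x) ≤ K

lemma Rec.le_zero {f : X → ℝ} (h : Rec φ f x) {r c : ℝ} (hc : c ≠ 0)
    (hr : ∀ ε, 0 < ε → ∃ C : ℝ, 0 ≤ C ∧ ∀ n : ℤ,
      r ≤ C * Real.exp (n * c + ε * |(n : ℝ)|) * f (φ n x)) : r ≤ 0 := by
  have h0 : 0 < |c| := abs_pos.2 hc
  obtain ⟨C, hC0, hC⟩ := hr (|c| / 2) (half_pos h0)
  obtain ⟨K, hK⟩ := h
  refine le_zero_of_exp (c := -(|c| / 2)) (C := C * K) (by linarith) fun N => ?_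
  rcases lt_or_gt_of_ne hc with h1 | h1
  · obtain ⟨n, h2, h3⟩ := (hK N).1
    refine ⟨n, Nat.cast_le.2 h2, (hC n).trans ((mul_le_mul_of_nonneg_left h3
      (by positivity)).trans_eq ?_)⟩
    rw [Int.cast_natCast, abs_of_neg h1, abs_of_nonneg (Nat.cast_nonneg n), mul_right_comm]
    congr 2
    ring
  · obtain ⟨n, h2, h3⟩ := (hK N).2
    have h4 := hC (-n)
    rw [Int.cast_neg, Int.cast_natCast] at h4
    refine ⟨n, Nat.cast_le.2 h2, h4.trans ((mul_le_mul_of_nonneg_left h3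
      (by positivity)).trans_eq ?_)⟩
    rw [abs_of_pos h1, abs_neg, abs_of_nonneg (Nat.cast_nonneg n), mul_right_comm]
    congr 2
    ring

lemma Rec.of_bdd {f : X → ℝ} {K : ℝ} (h : ∀ y, f y ≤ K) : Rec φ f x :=
  ⟨K, fun N => ⟨⟨N, le_rfl, h _⟩, N, le_rfl, h _⟩⟩

variable [MeasurableSpace X] {μ : Measure X} [IsFiniteMeasure μ]

lemma ae_rec (hφ : FAct φ) (hp : ∀ n : ℤ, MeasurePreserving (φ n) μ μ) {f : X → ℝ}
    (hf : AEMeasurable f μ) : ∀ᵐ x ∂μ, Rec φ f x := by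
  have hG : ∀ k : ℕ, MeasurableSet {y | hf.mk f y ≤ k} := fun k =>
    measurableSet_le hf.measurable_mk measurable_const
  have hm : Monotone fun k : ℕ => {y | hf.mk f y ≤ k} := fun a b hab y hy =>
    le_trans (b := (a : ℝ)) hy (Nat.cast_le.2 hab)
  have hae : ∀ᵐ x ∂μ, ∃ k : ℕ, x ∈ {y | hf.mk f y ≤ k} :=
    Eventually.of_forall fun x => exists_nat_ge (hf.mk f x)
  filter_upwards [ret (hp 1) hG hm hae, ret (hp (-1)) hG hm hae,
    ae_orbit (τ := fun n : ℤ => φ n) hp hf.ae_eq_mk] with x ⟨k, hk⟩ ⟨l, hl⟩ he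
  refine ⟨max k l, fun N => ⟨?_, ?_⟩⟩
  · obtain ⟨i, h1, -, h2⟩ := hk N
    rw [hφ.act.iter 1 i x, mul_one] at h2
    exact ⟨i, h1, ((he i).le.trans h2).trans (le_max_left _ _)⟩
  · obtain ⟨i, h1, -, h2⟩ := hl N
    rw [hφ.act.iter (-1) i x, mul_neg, mul_one] at h2
    have h3 := (he (-i)).le.trans h2
    rw [Int.cast_neg, Int.cast_natCast] at h3
    exact ⟨i, h1, h3.trans (le_max_right _ _)⟩

variable [FiniteDimensional ℝ E]

/-- the multiplicative ergodic theorem in a normed space -/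
theorem met' {τ : ℤ → X → X} {Φ : ℤ → X → E →L[ℝ] E} (hτ : Act τ)
    (hp : ∀ n, MeasurePreserving (τ n) μ μ) (h : Coc τ Φ L) (hm : ∀ n, Measurable (Φ n)) :
    ∃ (d : ℕ) (P : Fin d → X → E →L[ℝ] E) (lam : Fin d → X → ℝ),
      (∀ i, Measurable (P i)) ∧ (∀ i, Measurable (lam i)) ∧ (∀ i n x, lam i (τ n x) = lam i x) ∧
      (∃ K, ∀ i x, |lam i x| ≤ K) ∧ ∀ᵐ x ∂μ, ∀ m, Good τ Φ P lam (τ m x) := by
  let c := (toEuclidean (E := E)).conjContinuousAlgEquiv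
  obtain ⟨L', h'⟩ := h.conj c
  obtain ⟨P, lam, h1, h2, h3, h4, h5⟩ := met hτ hp h' fun n => c.continuous.measurable.comp (hm n)
  exact ⟨_, fun i y => c.symm (P i y), lam, fun i => c.symm.continuous.measurable.comp (h1 i), h2,
    h3, ⟨L', h4⟩, h5.mono fun x g m => (g m).conj c⟩

/-- the multiplicative ergodic theorem for flows, with a measurable enumeration -/
theorem met_flow (hφ : FAct φ) (hp : ∀ n : ℤ, MeasurePreserving (φ n) μ μ) (h : FCoc φ Φ L)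
    (hm : ∀ n : ℤ, Measurable (Φ n)) :
    ∃ (d : ℕ) (P : Fin d → X → E →L[ℝ] E) (lam : Fin d → X → ℝ),
      (∀ i, Measurable (P i)) ∧ (∀ i, Measurable (lam i)) ∧
      ∀ᵐ x ∂μ, Reg φ Φ x ∧ (∀ a, prj φ Φ x a = ∑ i, if lam i x = a then P i x else 0) ∧
        del φ Φ x = ∑ i, lam i x • P i x ∧ (∀ i, P i x ≠ 0 → prj φ Φ x (lam i x) = P i x) ∧
        ∀ i j, i < j → P j x ≠ 0 → P i x ≠ 0 ∧ lam i x < lam j x := by
  obtain ⟨d, P, lam, h1, h2, -, -, h5⟩ := met' hφ.act hp h.coc hm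
  refine ⟨d, P, lam, h1, h2, h5.mono fun x g => ?_⟩
  have o := osel_of_good hφ h g
  have g0 := g 0
  simp only [Int.cast_zero, hφ.zero] at g0
  refine ⟨o.reg, fun a => by rw [o.prj_eq hφ h], del_of_fintype hφ h (by simpa using g0.sum)
    (fun i => by simpa using g0.left i) (fun i => by simpa using g0.right i) (fbd_of_good hφ h g),
    fun i hi => ?_, g0.ord⟩
  rw [o.prj_eq hφ h]
  dsimp only
  rw [Finset.sum_eq_single i (fun j _ hj => ?_) (by simp), if_pos rfl]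
  split_ifs with e
  · by_contra hj'
    rcases lt_or_gt_of_ne hj with h3 | h3
    · exact (g0.ord j i h3 hi).2.ne e
    · exact (g0.ord i j h3 hj').2.ne' e
  · rfl

theorem ae_reg (hφ : FAct φ) (hp : ∀ n : ℤ, MeasurePreserving (φ n) μ μ) (h : FCoc φ Φ L)
    (hm : ∀ n : ℤ, Measurable (Φ n)) : ∀ᵐ x ∂μ, Reg φ Φ x := by
  obtain ⟨d, P, lam, -, -, h1⟩ := met_flow hφ hp h hm
  exact h1.mono fun x hx => hx.1

theorem aemeasurable_del (hφ : FAct φ) (hp : ∀ n : ℤ, MeasurePreserving (φ n) μ μ) (h : FCoc φ Φ L)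
    (hm : ∀ n : ℤ, Measurable (Φ n)) : AEMeasurable (del φ Φ) μ := by
  obtain ⟨d, P, lam, h1, h2, h3⟩ := met_flow hφ hp h hm
  exact ⟨fun x => ∑ i, lam i x • P i x, Finset.measurable_fun_sum _ fun i _ => (h2 i).smul (h1 i),
    h3.mono fun x hx => hx.2.2.1⟩

theorem aemeasurable_prj (hφ : FAct φ) (hp : ∀ n : ℤ, MeasurePreserving (φ n) μ μ) (h : FCoc φ Φ L)
    (hm : ∀ n : ℤ, Measurable (Φ n)) {a : X → ℝ} (ha : Measurable a) :
    AEMeasurable (fun x => prj φ Φ x (a x)) μ := by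
  obtain ⟨d, P, lam, h1, h2, h3⟩ := met_flow hφ hp h hm
  exact ⟨fun x => ∑ i, if lam i x = a x then P i x else 0, Finset.measurable_fun_sum _ fun i _ =>
    Measurable.ite (measurableSet_eq_fun (h2 i) ha) (h1 i) measurable_const,
    h3.mono fun x hx => hx.2.1 _⟩

/-- Pesin sets -/
theorem pesin (hφ : FAct φ) (hp : ∀ n : ℤ, MeasurePreserving (φ n) μ μ) (h : FCoc φ Φ L)
    (hm : ∀ n : ℤ, Measurable (Φ n)) {ε : ℝ} (hε : 0 < ε) :
    ∃ Λ : ℕ → Set X, (∀ k, MeasurableSet (Λ k)) ∧ Monotone Λ ∧ (∀ᵐ x ∂μ, ∃ k, x ∈ Λ k) ∧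
      ∀ k, ∀ x ∈ Λ k, Reg φ Φ x ∧ ∀ a s t, ‖Φ t x * prj φ Φ x a * Φ (-s) (φ s x)‖ ≤
        k * Real.exp ((t - s) * a + ε * (|s| + |t|)) := by
  obtain ⟨d, P, lam, h1, h2, h3, ⟨K, h4⟩, h5⟩ := met' hφ.act hp h.coc hm
  set D : ℝ := (d + 1) * Real.exp (6 * L + K + 3 * (ε / 2)) with hD
  have hD0 : 0 < D := by positivity
  obtain ⟨N, hN1, hN2, hN3⟩ := exists_measurable_superset_of_null (ae_iff.1 h5)
  let Λ : ℕ → Set X := fun k => Nᶜ ∩ ⋂ i, ⋂ m : ℤ, ⋂ n : ℤ, {x | ‖Φ n (φ m x) * P i (φ m x)‖ ≤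
    k / D * Real.exp (n * lam i x + ε / 2 * (|(n : ℝ)| + |(m : ℝ)|))}
  have hg : ∀ x ∈ Nᶜ, ∀ m : ℤ, Good (fun n : ℤ => φ n) (fun n : ℤ => Φ n) P lam (φ m x) :=
    fun x hx => not_not.1 fun e => hx (hN1 e)
  refine ⟨Λ, fun k => hN2.compl.inter (MeasurableSet.iInter fun i => MeasurableSet.iInter fun m =>
    MeasurableSet.iInter fun n => measurableSet_le (((hm n).mul (h1 i)).comp (hp m).measurable).norm
      ((((h2 i).const_mul _).add_const _).exp.const_mul _)), fun a b hab x hx => ⟨hx.1, ?_⟩, ?_,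
    fun k x hx => ?_⟩
  · have h6 := hx.2
    simp only [mem_iInter, mem_setOf_eq] at h6 ⊢
    exact fun i m n => (h6 i m n).trans (mul_le_mul_of_nonneg_right
      (div_le_div_of_nonneg_right (Nat.cast_le.2 hab) hD0.le) (Real.exp_pos _).le)
  · filter_upwards [measure_eq_zero_iff_ae_notMem.1 hN3] with x hx
    have g0 := hg x hx 0
    simp only [Int.cast_zero, hφ.zero] at g0
    choose C hC using fun i => g0.bd i (ε / 2) (half_pos hε)
    obtain ⟨k, hk⟩ := exists_nat_ge (D * ∑ i, |C i|)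
    refine ⟨k, hx, ?_⟩
    simp only [mem_iInter, mem_setOf_eq]
    refine fun i m n => (hC i m n).trans (mul_le_mul_of_nonneg_right ?_ (Real.exp_pos _).le)
    rw [le_div_iff₀' hD0]
    exact (mul_le_mul_of_nonneg_left ((le_abs_self _).trans (Finset.single_le_sum
      (f := fun i => |C i|) (fun i _ => abs_nonneg _) (Finset.mem_univ i))) hD0.le).trans hk
  · have g := hg x hx.1
    have h6 := hx.2
    simp only [mem_iInter, mem_setOf_eq] at h6
    have o := osel_of_good hφ h g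
    have g0 := g 0
    simp only [Int.cast_zero, hφ.zero] at g0
    refine ⟨o.reg, fun a s t => ?_⟩
    rw [o.prj_eq hφ h]
    dsimp only
    rw [Finset.mul_sum, Finset.sum_mul]
    have hb : ∀ i ∈ (Finset.univ : Finset (Fin d)),
        ‖Φ t x * (if lam i x = a then P i x else 0) * Φ (-s) (φ s x)‖ ≤
        k / (d + 1) * Real.exp ((t - s) * a + ε * (|s| + |t|)) := fun i _ => by
      split_ifs with e
      · refine (real_of_int hφ h (half_pos hε).le (fun m => g0.eqv m i)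
          (fun m => by simpa using (g m).right i) (h6 i) s t).trans ?_
        rw [e, show 2 * (ε / 2) = ε by ring]
        refine mul_le_mul_of_nonneg_right ?_ (Real.exp_pos _).le
        rw [hD, div_mul_eq_mul_div, div_le_div_iff₀ (by positivity) (by positivity), mul_assoc,
          mul_comm (Real.exp _)]
        have := h4 i x
        rw [e] at this
        gcongr
      · rw [mul_zero, zero_mul, norm_zero]
        positivity
    refine (norm_sum_le _ _).trans ((Finset.sum_le_card_nsmul _ _ _ hb).trans ?_)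
    rw [Finset.card_univ, Fintype.card_fin, nsmul_eq_mul, ← mul_assoc]
    refine mul_le_mul_of_nonneg_right ?_ (Real.exp_pos _).le
    rw [mul_div_assoc', div_le_iff₀ (by positivity)]
    nlinarith [Nat.cast_nonneg (α := ℝ) k]

end Vale.Agent.P207Z.MET
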