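import Vale.Agent.P207Z.MET.Main

/-!
# Oseledets splittings for cocycles over flows: the intrinsic description
-/

set_option linter.all false

open MeasureTheory Filter Topology Set

namespace Vale.Agent.P207Z.MET

variable {X : Type*} {E : Type*} [NormedAddCommGroup E] [NormedSpace ℝ E]

/-- flows -/
structure FAct (φ : ℝ → X → X) : Prop where
  zero : ∀ x, φ 0 x = x
  add : ∀ s t x, φ (s + t) x = φ s (φ t x)

/-- bounded cocycles over a flow; `Φ 0 x` is a projection on the fibre over `x` -/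
structure FCoc (φ : ℝ → X → X) (Φ : ℝ → X → E →L[ℝ] E) (L : ℝ) : Prop where
  add : ∀ s t x, Φ (s + t) x = Φ s (φ t x) * Φ t x
  nn : 0 ≤ L
  bd : ∀ t x, ‖Φ t x‖ ≤ Real.exp (L * (|t| + 2))

/-- the transport of `q` along the orbit of `x` has exponent `l`, with tempered constants -/
def FBd (φ : ℝ → X → X) (Φ : ℝ → X → E →L[ℝ] E) (x : X) (q : E →L[ℝ] E) (l : ℝ) : Prop :=
  ∀ ε : ℝ, 0 < ε → ∃ C : ℝ, ∀ s t : ℝ,
    ‖Φ t x * q * Φ (-s) (φ s x)‖ ≤ C * Real.exp ((t - s) * l + ε * (|s| + |t|))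

/-- `π a` is the Oseledets projection of exponent `a` at the point `x` -/
structure Osel (φ : ℝ → X → X) (Φ : ℝ → X → E →L[ℝ] E) (x : X) (π : ℝ → E →L[ℝ] E) : Prop where
  fin : (Function.support π).Finite
  sum : ∑ᶠ a, π a = Φ 0 x
  left : ∀ a, Φ 0 x * π a = π a
  right : ∀ a, π a * Φ 0 x = π a
  bd : ∀ a, FBd φ Φ x (π a) a

/-- regular points -/
def Reg (φ : ℝ → X → X) (Φ : ℝ → X → E →L[ℝ] E) (x : X) : Prop := ∃ π, Osel φ Φ x π

open Classical in
/-- the Oseledets projections (zero at the points which are not regular) -/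
noncomputable def prj (φ : ℝ → X → X) (Φ : ℝ → X → E →L[ℝ] E) (x : X) : ℝ → E →L[ℝ] E :=
  if h : Reg φ Φ x then h.choose else 0

/-- the Oseledets grading -/
noncomputable def del (φ : ℝ → X → X) (Φ : ℝ → X → E →L[ℝ] E) (x : X) : E →L[ℝ] E :=
  ∑ᶠ a, a • prj φ Φ x a

variable {φ : ℝ → X → X} {Φ : ℝ → X → E →L[ℝ] E} {L : ℝ} {x : X}

lemma FAct.add' (h : FAct φ) {k s t : ℝ} (e : k = s + t) (x : X) : φ k x = φ s (φ t x) := by
  rw [e, h.add]

lemma FAct.neg_add (h : FAct φ) (t : ℝ) (x : X) : φ (-t) (φ t x) = x := by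
  rw [← h.add, neg_add_cancel, h.zero]

lemma FAct.act (h : FAct φ) : Act fun n : ℤ => φ n :=
  ⟨fun x => by simp [h.zero], fun m n x => by simp [h.add]⟩

lemma FCoc.coc (h : FCoc φ Φ L) : Coc (fun n : ℤ => φ n) (fun n : ℤ => Φ n) L :=
  ⟨fun m n x => by simp [h.add], h.nn, fun n x => h.bd n x⟩

lemma FCoc.add' (h : FCoc φ Φ L) {k s t : ℝ} (e : k = s + t) (x : X) :
    Φ k x = Φ s (φ t x) * Φ t x := by
  rw [e, h.add]

/-- a cocycle which is bounded for small times is bounded -/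
lemma FCoc.of_one (hL : 0 ≤ L) (add : ∀ s t x, Φ (s + t) x = Φ s (φ t x) * Φ t x)
    (h1 : ∀ t, |t| ≤ 1 → ∀ x, ‖Φ t x‖ ≤ Real.exp L) : FCoc φ Φ L := by
  have key : ∀ n : ℕ, ∀ t : ℝ, |t| ≤ n + 1 → ∀ x, ‖Φ t x‖ ≤ Real.exp (L * (n + 1)) := by
    intro n
    induction n with
    | zero => simpa using h1
    | succ n ih =>
      intro t ht x
      have hn : (0 : ℝ) ≤ n := Nat.cast_nonneg n
      push_cast at ht ⊢
      have e : t = t / (n + 2) + t * (n + 1) / (n + 2) := by field_simp; ring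
      have a1 : |t / (n + 2)| ≤ 1 := by
        rw [abs_div, abs_of_pos (by linarith : (0 : ℝ) < n + 2), div_le_one (by linarith)]
        linarith
      have a2 : |t * (n + 1) / (n + 2)| ≤ n + 1 := by
        rw [mul_div_right_comm, abs_mul, abs_of_pos (by linarith : (0 : ℝ) < n + 1)]
        exact mul_le_of_le_one_left (by linarith) a1
      rw [e, add, show L * (n + 1 + 1) = L + L * (n + 1) by ring, Real.exp_add]
      exact (norm_mul_le _ _).trans (mul_le_mul (h1 _ a1 _) (ih _ a2 _) (norm_nonneg _)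
        (Real.exp_pos _).le)
  refine ⟨add, hL, fun t x => (key ⌊|t|⌋₊ t (Nat.lt_floor_add_one _).le x).trans
    (Real.exp_le_exp.2 (mul_le_mul_of_nonneg_left ?_ hL))⟩
  linarith [Nat.floor_le (abs_nonneg t)]

lemma FCoc.zero_mul (h : FCoc φ Φ L) (t : ℝ) (x : X) : Φ 0 (φ t x) * Φ t x = Φ t x :=
  (h.add' (zero_add t).symm x).symm

lemma FCoc.mul_zero (h : FCoc φ Φ L) (hφ : FAct φ) (t : ℝ) (x : X) : Φ t x * Φ 0 x = Φ t x := by
  have := h.add' (add_zero t).symm x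
  rw [hφ.zero] at this
  exact this.symm

lemma FCoc.neg_mul (h : FCoc φ Φ L) (t : ℝ) (x : X) : Φ (-t) (φ t x) * Φ t x = Φ 0 x :=
  (h.add' (neg_add_cancel t).symm x).symm

lemma FCoc.mul_neg (h : FCoc φ Φ L) (hφ : FAct φ) (t : ℝ) (x : X) :
    Φ t x * Φ (-t) (φ t x) = Φ 0 (φ t x) := by
  have := h.add' (add_neg_cancel t).symm (φ t x)
  rw [hφ.neg_add] at this
  exact this.symm

lemma FCoc.zero_neg (h : FCoc φ Φ L) (hφ : FAct φ) (t : ℝ) (x : X) :
    Φ 0 x * Φ (-t) (φ t x) = Φ (-t) (φ t x) := by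
  have := h.zero_mul (-t) (φ t x)
  rwa [hφ.neg_add] at this

lemma le_zero_of_exp {r c : ℝ} (hc : c < 0) {C : ℝ}
    (h : ∀ N : ℕ, ∃ t : ℝ, N ≤ t ∧ r ≤ C * Real.exp (t * c)) : r ≤ 0 := by
  by_contra hr
  push Not at hr
  refine absurd (le_of_exp (a := c) (C := C) hr fun n => ?_) (not_le.2 hc)
  obtain ⟨t, h1, h2⟩ := h n
  exact h2.trans (mul_le_mul_of_nonneg_left (Real.exp_le_exp.2
    (mul_le_mul_of_nonpos_right h1 hc.le)) (nn_of_exp hr.le h2))

lemma FBd.zero (l : ℝ) : FBd φ Φ x 0 l := fun ε _ => ⟨0, fun s t => by simp⟩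

lemma FBd.add {q q' : E →L[ℝ] E} {l : ℝ} (h : FBd φ Φ x q l) (h' : FBd φ Φ x q' l) :
    FBd φ Φ x (q + q') l := fun ε hε => by
  obtain ⟨C, hC⟩ := h ε hε
  obtain ⟨D, hD⟩ := h' ε hε
  refine ⟨C + D, fun s t => ?_⟩
  rw [mul_add, add_mul, add_mul]
  exact (norm_add_le _ _).trans (add_le_add (hC s t) (hD s t))

lemma FBd.sum {ι : Type*} (S : Finset ι) {q : ι → E →L[ℝ] E} {l : ℝ}
    (h : ∀ i ∈ S, FBd φ Φ x (q i) l) : FBd φ Φ x (∑ i ∈ S, q i) l :=
  Finset.sum_induction q (fun q => FBd φ Φ x q l) (fun _ _ => FBd.add) (FBd.zero l) h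

/-- the upper bound -/
lemma FBd.up (hφ : FAct φ) {q : E →L[ℝ] E} {l : ℝ} (h : FBd φ Φ x q l) (hq : q * Φ 0 x = q)
    {ε : ℝ} (hε : 0 < ε) : ∃ C : ℝ, ∀ t, ‖Φ t x * q‖ ≤ C * Real.exp (t * l + ε * |t|) := by
  obtain ⟨C, hC⟩ := h ε hε
  refine ⟨C, fun t => ?_⟩
  have := hC 0 t
  rwa [neg_zero, hφ.zero, mul_assoc, hq, sub_zero, abs_zero, zero_add] at this

/-- the bound for the inverse -/
lemma FBd.dn {q : E →L[ℝ] E} {l : ℝ} (h : FBd φ Φ x q l) (hq : Φ 0 x * q = q)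
    {ε : ℝ} (hε : 0 < ε) :
    ∃ C : ℝ, ∀ s, ‖q * Φ (-s) (φ s x)‖ ≤ C * Real.exp (-(s * l) + ε * |s|) := by
  obtain ⟨C, hC⟩ := h ε hε
  refine ⟨C, fun s => ?_⟩
  have := hC s 0
  rwa [hq, zero_sub, abs_zero, add_zero, neg_mul] at this

/-- the lower bound -/
lemma FBd.low (hc : FCoc φ Φ L) {q : E →L[ℝ] E} {l : ℝ} (h : FBd φ Φ x q l) (hq : Φ 0 x * q = q)
    (hq' : q * Φ 0 x = q) {ε : ℝ} (hε : 0 < ε) :
    ∃ C : ℝ, 0 ≤ C ∧ ∀ t v, ‖q v‖ ≤ C * Real.exp (-(t * l) + ε * |t|) * ‖Φ t x v‖ := by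
  obtain ⟨C, hC⟩ := h.dn hq hε
  refine ⟨C, nn_of_exp (norm_nonneg _) (hC 0), fun t v => ?_⟩
  conv_lhs => rw [← hq', ← hc.neg_mul t, ← mul_assoc, ContinuousLinearMap.mul_apply]
  exact ContinuousLinearMap.le_of_opNorm_le _ (hC t) _

lemma eq_zero_of_two {r c : ℝ} (hc : c ≠ 0)
    (h : ∀ ε, 0 < ε → ∃ C : ℝ, ∀ t : ℝ, r ≤ C * Real.exp (t * c + ε * |t|)) : r ≤ 0 := by
  have h0 : 0 < |c| := abs_pos.2 hc
  obtain ⟨C, hC⟩ := h (|c| / 2) (half_pos h0)
  refine le_zero_of_exp (c := -(|c| / 2)) (C := C) (by linarith) fun N => ⟨N, le_rfl, ?_⟩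
  have hN : (0 : ℝ) ≤ N := Nat.cast_nonneg N
  rcases lt_or_gt_of_ne hc with h1 | h1
  · refine (hC N).trans_eq ?_
    rw [abs_of_neg h1, abs_of_nonneg hN]
    congr 2
    ring
  · refine (hC (-N)).trans_eq ?_
    rw [abs_of_pos h1, abs_neg, abs_of_nonneg hN]
    congr 2
    ring

variable {π π' : ℝ → E →L[ℝ] E}

lemma Osel.mul_ne (hφ : FAct φ) (hc : FCoc φ Φ L) (h : Osel φ Φ x π) (h' : Osel φ Φ x π')
    {a b : ℝ} (hab : a ≠ b) : π a * π' b = 0 := by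
  refine norm_le_zero_iff.1 (eq_zero_of_two (c := b - a) (sub_ne_zero.2 hab.symm) fun ε hε => ?_)
  obtain ⟨C, hC⟩ := (h.bd a).dn (h.left a) (half_pos hε)
  obtain ⟨D, hD⟩ := (h'.bd b).up hφ (h'.right b) (half_pos hε)
  have hC0 : 0 ≤ C := nn_of_exp (norm_nonneg _) (hC 0)
  refine ⟨C * D, fun t => ?_⟩
  rw [← h.right a, ← hc.neg_mul t, ← mul_assoc, mul_assoc _ (Φ t x)]
  refine (norm_mul_le _ _).trans ((mul_le_mul (hC t) (hD t) (norm_nonneg _)
    (by positivity)).trans_eq ?_)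
  rw [mul_mul_mul_comm, ← Real.exp_add]
  congr 2
  ring

lemma Osel.sum_eq (h : Osel φ Φ x π) {S : Finset ℝ} (hS : ∀ a, π a ≠ 0 → a ∈ S) :
    ∑ a ∈ S, π a = Φ 0 x := by
  rw [← h.sum, finsum_eq_sum_of_support_subset π (s := S) fun a ha => hS a ha]

lemma Osel.mul_self (hφ : FAct φ) (hc : FCoc φ Φ L) (h : Osel φ Φ x π) (h' : Osel φ Φ x π')
    (a : ℝ) : π a * π' a = π a ∧ π a * π' a = π' a := by
  classical
  constructor
  · conv_rhs => rw [← h.right a, ← h'.sum_eq (S := insert a h'.fin.toFinset) fun b hb => by simp [hb]]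
    rw [Finset.mul_sum, Finset.sum_eq_single a (fun b _ hb => h.mul_ne hφ hc h' hb.symm) (by simp)]
  · conv_rhs => rw [← h'.left a, ← h.sum_eq (S := insert a h.fin.toFinset) fun b hb => by simp [hb]]
    rw [Finset.sum_mul, Finset.sum_eq_single a (fun b _ hb => h.mul_ne hφ hc h' hb) (by simp)]

lemma Osel.unique (hφ : FAct φ) (hc : FCoc φ Φ L) (h : Osel φ Φ x π) (h' : Osel φ Φ x π') :
    π = π' :=
  funext fun a => (h.mul_self hφ hc h' a).1.symm.trans (h.mul_self hφ hc h' a).2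

lemma Osel.idem (hφ : FAct φ) (hc : FCoc φ Φ L) (h : Osel φ Φ x π) (a : ℝ) : π a * π a = π a :=
  (h.mul_self hφ hc h a).1

lemma Osel.orth (hφ : FAct φ) (hc : FCoc φ Φ L) (h : Osel φ Φ x π) {a b : ℝ} (hab : a ≠ b) :
    π a * π b = 0 := h.mul_ne hφ hc h hab

lemma Osel.abs_le (hc : FCoc φ Φ L) (h : Osel φ Φ x π) {a : ℝ} (ha : π a ≠ 0) : |a| ≤ L := by
  by_contra hl
  push Not at hl
  have hL := hc.nn
  have h0 : a ≠ 0 := fun e => by rw [e, abs_zero] at hl; linarith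
  obtain ⟨C, hC⟩ := (h.bd a).dn (h.left a) (half_pos (sub_pos.2 hl))
  have hC0 : 0 ≤ C := nn_of_exp (norm_nonneg _) (hC 0)
  refine ha (norm_le_zero_iff.1 (le_zero_of_exp (c := -((|a| - L) / 2)) (C := C * Real.exp (L * 2))
    (by linarith) fun N => ⟨N, le_rfl, ?_⟩))
  have hN : (0 : ℝ) ≤ N := Nat.cast_nonneg N
  obtain ⟨t, h1, h2⟩ : ∃ t : ℝ, |t| = N ∧ t * a = N * |a| := by
    rcases lt_or_gt_of_ne h0 with h1 | h1
    · exact ⟨-N, by rw [abs_neg, abs_of_nonneg hN], by rw [abs_of_neg h1]; ring⟩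
    · exact ⟨N, abs_of_nonneg hN, by rw [abs_of_pos h1]⟩
  rw [← h.right a, ← hc.neg_mul t, ← mul_assoc]
  refine (norm_mul_le _ _).trans ((mul_le_mul (hC t) (hc.bd t x) (norm_nonneg _)
    (by positivity)).trans_eq ?_)
  rw [mul_assoc, mul_assoc, ← Real.exp_add, ← Real.exp_add, h1, h2]
  congr 2
  ring

lemma FBd.map (hφ : FAct φ) (hc : FCoc φ Φ L) {q : E →L[ℝ] E} {l : ℝ} (h : FBd φ Φ x q l) (u : ℝ) :
    FBd φ Φ (φ u x) (Φ u x * q * Φ (-u) (φ u x)) l := fun ε hε => by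
  obtain ⟨C, hC⟩ := h ε hε
  have hC0 : 0 ≤ C := nn_of_exp (norm_nonneg _) (hC 0 0)
  refine ⟨C * Real.exp (2 * ε * |u|), fun s t => ?_⟩
  have e : Φ t (φ u x) * (Φ u x * q * Φ (-u) (φ u x)) * Φ (-s) (φ s (φ u x)) =
      Φ (t + u) x * q * Φ (-(s + u)) (φ (s + u) x) := by
    rw [hc.add t u, hc.add' (k := -(s + u)) (s := -u) (t := -s) (by ring), hφ.add, hφ.neg_add]
    noncomm_ring
  rw [e, mul_assoc C, ← Real.exp_add]
  refine (hC _ _).trans (mul_le_mul_of_nonneg_left (Real.exp_le_exp.2 ?_) hC0)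
  nlinarith [mul_le_mul_of_nonneg_left (abs_add_le s u) hε.le,
    mul_le_mul_of_nonneg_left (abs_add_le t u) hε.le]

/-- transport of the splitting along the orbit -/
lemma Osel.map (hφ : FAct φ) (hc : FCoc φ Φ L) (h : Osel φ Φ x π) (u : ℝ) :
    Osel φ Φ (φ u x) fun a => Φ u x * π a * Φ (-u) (φ u x) := by
  have hs : (Function.support fun a => Φ u x * π a * Φ (-u) (φ u x)) ⊆ h.fin.toFinset :=
    fun a ha => by
      simp only [Finite.coe_toFinset, Function.mem_support] at ha ⊢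
      exact fun e => ha (by rw [e, mul_zero, zero_mul])
  refine ⟨h.fin.toFinset.finite_toSet.subset hs, ?_, fun a => ?_, fun a => ?_,
    fun a => (h.bd a).map hφ hc u⟩
  · rw [finsum_eq_sum_of_support_subset _ hs, ← Finset.sum_mul, ← Finset.mul_sum,
      h.sum_eq fun a ha => by simpa using ha, hc.mul_zero hφ, hc.mul_neg hφ]
  · rw [← mul_assoc, ← mul_assoc, hc.zero_mul]
  · rw [mul_assoc, hc.mul_zero hφ]

/-- a splitting from a finite family -/
lemma Osel.of_fintype {ι : Type*} [Fintype ι] {q : ι → E →L[ℝ] E} {l : ι → ℝ}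
    (hs : ∑ i, q i = Φ 0 x) (hl : ∀ i, Φ 0 x * q i = q i) (hr : ∀ i, q i * Φ 0 x = q i)
    (hb : ∀ i, FBd φ Φ x (q i) (l i)) :
    Osel φ Φ x fun a => ∑ i, if l i = a then q i else 0 := by
  classical
  have h1 : (Function.support fun a => ∑ i, if l i = a then q i else 0) ⊆
      (Finset.univ.image l : Finset ℝ) := fun a ha => by
    by_contra hc
    refine ha (Finset.sum_eq_zero fun i _ => if_neg fun e => hc ?_)
    exact Finset.mem_coe.2 (Finset.mem_image.2 ⟨i, Finset.mem_univ _, e⟩)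
  refine ⟨(Finset.finite_toSet _).subset h1, ?_, fun a => ?_, fun a => ?_, fun a => ?_⟩
  · rw [finsum_eq_sum_of_support_subset _ h1, Finset.sum_comm, ← hs]
    refine Finset.sum_congr rfl fun i _ => ?_
    rw [Finset.sum_ite_eq, if_pos (Finset.mem_image_of_mem _ (Finset.mem_univ i))]
  · rw [Finset.mul_sum]
    refine Finset.sum_congr rfl fun i _ => ?_
    split_ifs
    · exact hl i
    · exact mul_zero _
  · rw [Finset.sum_mul]
    refine Finset.sum_congr rfl fun i _ => ?_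
    split_ifs
    · exact hr i
    · exact zero_mul _
  · refine FBd.sum _ fun i _ => ?_
    split_ifs with e
    · exact e ▸ hb i
    · exact FBd.zero a

lemma Reg.osel (h : Reg φ Φ x) : Osel φ Φ x (prj φ Φ x) := by
  rw [prj, dif_pos h]
  exact h.choose_spec

lemma Osel.reg (h : Osel φ Φ x π) : Reg φ Φ x := ⟨π, h⟩

lemma Osel.prj_eq (hφ : FAct φ) (hc : FCoc φ Φ L) (h : Osel φ Φ x π) : prj φ Φ x = π :=
  h.reg.osel.unique hφ hc h

lemma prj_of_not (h : ¬ Reg φ Φ x) : prj φ Φ x = 0 := by rw [prj, dif_neg h]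

lemma Reg.map (hφ : FAct φ) (hc : FCoc φ Φ L) (h : Reg φ Φ x) (u : ℝ) : Reg φ Φ (φ u x) :=
  (h.osel.map hφ hc u).reg

lemma reg_iff (hφ : FAct φ) (hc : FCoc φ Φ L) (u : ℝ) (x : X) : Reg φ Φ (φ u x) ↔ Reg φ Φ x :=
  ⟨fun h => hφ.neg_add u x ▸ h.map hφ hc (-u), fun h => h.map hφ hc u⟩

/-- equivariance, at every point -/
lemma prj_map (hφ : FAct φ) (hc : FCoc φ Φ L) (u : ℝ) (x : X) (a : ℝ) :
    prj φ Φ (φ u x) a = Φ u x * prj φ Φ x a * Φ (-u) (φ u x) := by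
  by_cases h : Reg φ Φ x
  · rw [(h.osel.map hφ hc u).prj_eq hφ hc]
  · rw [prj_of_not h, prj_of_not (mt (reg_iff hφ hc u x).1 h)]
    simp

lemma prj_right (x : X) (a : ℝ) : prj φ Φ x a * Φ 0 x = prj φ Φ x a := by
  by_cases h : Reg φ Φ x
  · exact h.osel.right a
  · simp [prj_of_not h]

lemma prj_left (x : X) (a : ℝ) : Φ 0 x * prj φ Φ x a = prj φ Φ x a := by
  by_cases h : Reg φ Φ x
  · exact h.osel.left a
  · simp [prj_of_not h]

lemma prj_eqv (hφ : FAct φ) (hc : FCoc φ Φ L) (u : ℝ) (x : X) (a : ℝ) :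
    Φ u x * prj φ Φ x a = prj φ Φ (φ u x) a * Φ u x := by
  rw [prj_map hφ hc, mul_assoc, hc.neg_mul, mul_assoc, prj_right]

lemma prj_fin (x : X) : (Function.support (prj φ Φ x)).Finite := by
  by_cases h : Reg φ Φ x
  · exact h.osel.fin
  · simp [prj_of_not h]

lemma prj_map_eq_zero (hφ : FAct φ) (hc : FCoc φ Φ L) (u : ℝ) (x : X) (a : ℝ) :
    prj φ Φ (φ u x) a = 0 ↔ prj φ Φ x a = 0 := by
  refine ⟨fun h => ?_, fun h => by rw [prj_map hφ hc, h, mul_zero, zero_mul]⟩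
  rw [← hφ.neg_add u x, prj_map hφ hc, h, mul_zero, zero_mul]

lemma del_eq {S : Finset ℝ} (hS : ∀ a, prj φ Φ x a ≠ 0 → a ∈ S) :
    del φ Φ x = ∑ a ∈ S, a • prj φ Φ x a :=
  finsum_eq_sum_of_support_subset _ fun a ha => hS a fun e => ha (by simp [e])

lemma del_eqv (hφ : FAct φ) (hc : FCoc φ Φ L) (u : ℝ) (x : X) :
    Φ u x * del φ Φ x = del φ Φ (φ u x) * Φ u x := by
  rw [del_eq (S := (prj_fin (φ := φ) (Φ := Φ) x).toFinset) fun a ha => by simpa using ha,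
    del_eq (S := (prj_fin (φ := φ) (Φ := Φ) x).toFinset) fun a ha => by
      simpa using mt (prj_map_eq_zero hφ hc u x a).2 ha, Finset.mul_sum, Finset.sum_mul]
  refine Finset.sum_congr rfl fun a _ => ?_
  rw [mul_smul_comm, smul_mul_assoc, prj_eqv hφ hc]

lemma del_prj (hφ : FAct φ) (hc : FCoc φ Φ L) (x : X) (a : ℝ) :
    del φ Φ x * prj φ Φ x a = a • prj φ Φ x a ∧ prj φ Φ x a * del φ Φ x = a • prj φ Φ x a := by
  classical
  by_cases h : Reg φ Φ x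
  · rw [del_eq (S := insert a h.osel.fin.toFinset) fun b hb => by simp [hb], Finset.sum_mul,
      Finset.mul_sum, Finset.sum_eq_single a (fun b _ hb => by
        rw [smul_mul_assoc, h.osel.orth hφ hc hb, smul_zero]) (by simp),
      Finset.sum_eq_single a (fun b _ hb => by
        rw [mul_smul_comm, h.osel.orth hφ hc hb.symm, smul_zero]) (by simp),
      smul_mul_assoc, mul_smul_comm, h.osel.idem hφ hc]
    exact ⟨rfl, rfl⟩
  · simp [prj_of_not h]

lemma del_of_fintype (hφ : FAct φ) (hc : FCoc φ Φ L) {ι : Type*} [Fintype ι]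
    {q : ι → E →L[ℝ] E} {l : ι → ℝ}
    (hs : ∑ i, q i = Φ 0 x) (hl : ∀ i, Φ 0 x * q i = q i) (hr : ∀ i, q i * Φ 0 x = q i)
    (hb : ∀ i, FBd φ Φ x (q i) (l i)) : del φ Φ x = ∑ i, l i • q i := by
  classical
  have h := (Osel.of_fintype hs hl hr hb).prj_eq hφ hc
  rw [del_eq (S := Finset.univ.image l) fun a ha => by
    by_contra hc
    rw [h] at ha
    exact ha (Finset.sum_eq_zero fun i _ => if_neg fun e => hc
      (Finset.mem_image.2 ⟨i, Finset.mem_univ _, e⟩)), h]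
  simp only [Finset.smul_sum]
  rw [Finset.sum_comm]
  refine Finset.sum_congr rfl fun i _ => ?_
  rw [Finset.sum_eq_single (l i) (fun b _ hb => by rw [if_neg hb.symm, smul_zero])
    (fun hi => absurd (Finset.mem_image_of_mem _ (Finset.mem_univ i)) hi), if_pos rfl]

/-- forward growth at most `w` kills the components of larger exponent -/
lemma Osel.fwd_zero (hc : FCoc φ Φ L) (h : Osel φ Φ x π) {v : E} {w a : ℝ} (ha : w < a) {C : ℝ}
    (hv : ∀ N : ℕ, ∃ t : ℝ, N ≤ t ∧ ‖Φ t x v‖ ≤ C * Real.exp (t * w)) : π a v = 0 := by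
  obtain ⟨D, hD0, hD⟩ := (h.bd a).low hc (h.left a) (h.right a) (half_pos (sub_pos.2 ha))
  refine norm_le_zero_iff.1 (le_zero_of_exp (c := -((a - w) / 2)) (C := D * C) (by linarith)
    fun N => ?_)
  obtain ⟨t, h1, h2⟩ := hv N
  refine ⟨t, h1, (hD t v).trans ((mul_le_mul_of_nonneg_left h2 (by positivity)).trans_eq ?_)⟩
  rw [mul_mul_mul_comm, ← Real.exp_add, abs_of_nonneg ((Nat.cast_nonneg N).trans h1)]
  congr 2
  ring

/-- backward decay at rate at least `w` kills the components of smaller exponent -/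
lemma Osel.bwd_zero (hc : FCoc φ Φ L) (h : Osel φ Φ x π) {v : E} {w a : ℝ} (ha : a < w) {C : ℝ}
    (hv : ∀ N : ℕ, ∃ t : ℝ, N ≤ t ∧ ‖Φ (-t) x v‖ ≤ C * Real.exp (-(t * w))) : π a v = 0 := by
  obtain ⟨D, hD0, hD⟩ := (h.bd a).low hc (h.left a) (h.right a) (half_pos (sub_pos.2 ha))
  refine norm_le_zero_iff.1 (le_zero_of_exp (c := -((w - a) / 2)) (C := D * C) (by linarith)
    fun N => ?_)
  obtain ⟨t, h1, h2⟩ := hv N
  refine ⟨t, h1, (hD (-t) v).trans ((mul_le_mul_of_nonneg_left h2 (by positivity)).trans_eq ?_)⟩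
  rw [mul_mul_mul_comm, ← Real.exp_add, abs_neg, abs_of_nonneg ((Nat.cast_nonneg N).trans h1)]
  congr 2
  ring

/-- the growth of a vector whose components have exponents in the interval from `a` to `b` -/
lemma Osel.growth (hφ : FAct φ) (hc : FCoc φ Φ L) (h : Osel φ Φ x π) {ε : ℝ} (hε : 0 < ε) :
    ∃ C : ℝ, 0 ≤ C ∧ ∀ (v : E) (t r : ℝ), (∀ a, π a v ≠ 0 → t * a ≤ r) →
      ‖Φ t x v‖ ≤ C * Real.exp (r + ε * |t|) * ‖v‖ := by
  choose C hC using fun a => (h.bd a).up hφ (h.right a) hε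
  have hC0 : ∀ a, 0 ≤ C a := fun a => nn_of_exp (norm_nonneg _) (hC a 0)
  refine ⟨∑ a ∈ h.fin.toFinset, C a, Finset.sum_nonneg fun a _ => hC0 a, fun v t r hv => ?_⟩
  rw [← hc.mul_zero hφ, ← h.sum_eq (S := h.fin.toFinset) fun a ha => by simpa using ha,
    Finset.mul_sum, ContinuousLinearMap.sum_apply, Finset.sum_mul, Finset.sum_mul]
  refine (norm_sum_le _ _).trans (Finset.sum_le_sum fun a _ => ?_)
  have := hC0 a
  by_cases ha : π a v = 0
  · rw [ContinuousLinearMap.mul_apply, ha, map_zero, norm_zero]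
    positivity
  · refine (ContinuousLinearMap.le_of_opNorm_le _ (hC a t) v).trans ?_
    have := hv a ha
    gcongr

end Vale.Agent.P207Z.MET
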