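import Vale.Agent.P207Z.MET.Step

/-!
# The two-sided multiplicative ergodic theorem for bounded cocycles
-/

set_option linter.all false

open MeasureTheory Filter Topology Set

namespace Vale.Agent.P207Z.MET

variable {X : Type*} {E : Type*} [NormedAddCommGroup E] [InnerProductSpace ℝ E]
  [FiniteDimensional ℝ E] {τ : ℤ → X → X} {L : ℝ} [MeasurableSpace X] {μ : Measure X}
  [IsFiniteMeasure μ]

lemma meas_Ql {Φ : ℤ → X → E →L[ℝ] E} (hτ : Act τ) (hτm : ∀ n, Measurable (τ n)) (h : Coc τ Φ L)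
    (hm : ∀ n, Measurable (Φ n)) : Measurable (Ql τ Φ) :=
  (StronglyMeasurable.limUnder (l := atTop) (f := fun (N : ℕ) y => qn τ Φ N y) fun N =>
    Measurable.stronglyMeasurable
      ((((hm _).comp (hτm _)).mul ((meas_Pr hτ h hm).comp (hτm _))).mul (hm _))).measurable

theorem met_rank (hτ : Act τ) (hp : ∀ n, MeasurePreserving (τ n) μ μ) (k : ℕ) :
    ∀ Φ : ℤ → X → E →L[ℝ] E, Coc τ Φ L → (∀ n, Measurable (Φ n)) →
      (∀ x, Module.finrank ℝ (Φ 0 x).range ≤ k) →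
      ∃ (P : Fin k → X → E →L[ℝ] E) (lam : Fin k → X → ℝ), (∀ i, Measurable (P i)) ∧
        (∀ i, Measurable (lam i)) ∧ (∀ i n x, lam i (τ n x) = lam i x) ∧
        (∀ i x, |lam i x| ≤ L) ∧ ∀ᵐ x ∂μ, Good τ Φ P lam x := by
  induction k with
  | zero =>
    intro Φ h hm hr
    refine ⟨Fin.elim0, Fin.elim0, fun i => i.elim0, fun i => i.elim0, fun i => i.elim0,
      fun i => i.elim0, Eventually.of_forall fun x => ⟨?_, fun i => i.elim0, fun i => i.elim0,
        fun _ i => i.elim0, fun i => i.elim0, fun i => i.elim0⟩⟩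
    have h1 : (Φ 0 x).range = ⊥ := Submodule.finrank_eq_zero.1 (Nat.le_zero.1 (hr x))
    ext u
    have h2 : Φ 0 x u ∈ (Φ 0 x).range := ⟨u, rfl⟩
    rw [h1] at h2
    simpa using (Submodule.mem_bot ℝ).1 h2 |>.symm
  | succ k ih =>
    intro Φ h hm hr
    have hτm : ∀ n, Measurable (τ n) := fun n => (hp n).measurable
    obtain ⟨P, lam, h1, h2, h3, h4, h5⟩ := ih (Qt τ Φ) (h.qt hτ) (meas_Qt hτ hτm h hm)
      fun x => rank_qt hτ h (hr x)
    refine ⟨Fin.cons (Ql τ Φ) fun i y => (Φ 0 y - Ql τ Φ y) * P i y, Fin.cons (mu Φ) lam,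
      fun i => ?_, fun i => ?_, fun i => ?_, fun i => ?_, ?_⟩
    · exact Fin.cases (meas_Ql hτ hτm h hm)
        (fun i => ((hm 0).sub (meas_Ql hτ hτm h hm)).mul (h1 i)) i
    · exact Fin.cases (meas_mu hτ h hm) h2 i
    · exact Fin.cases (mu_inv hτ h) h3 i
    · exact Fin.cases (abs_mu_le hτ h) h4 i
    · filter_upwards [bd_slow hτ hp h hm, ae_orbit hp h5] with x hb g
      exact good_step hτ h hb g

/-- the multiplicative ergodic theorem -/
theorem met {Φ : ℤ → X → E →L[ℝ] E} (hτ : Act τ) (hp : ∀ n, MeasurePreserving (τ n) μ μ)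
    (h : Coc τ Φ L) (hm : ∀ n, Measurable (Φ n)) :
    ∃ (P : Fin (Module.finrank ℝ E) → X → E →L[ℝ] E) (lam : Fin (Module.finrank ℝ E) → X → ℝ),
      (∀ i, Measurable (P i)) ∧ (∀ i, Measurable (lam i)) ∧ (∀ i n x, lam i (τ n x) = lam i x) ∧
      (∀ i x, |lam i x| ≤ L) ∧ ∀ᵐ x ∂μ, ∀ m, Good τ Φ P lam (τ m x) := by
  obtain ⟨P, lam, h1, h2, h3, h4, h5⟩ := met_rank (L := L) hτ hp _ Φ h hm
    fun x => Submodule.finrank_le _
  exact ⟨P, lam, h1, h2, h3, h4, ae_orbit hp h5⟩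

end Vale.Agent.P207Z.MET
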