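import Vale.Agent.P207Z.MET.Defs

/-!
# The slowest subspace of a cocycle
-/

set_option linter.all false

open MeasureTheory Filter Topology Set

namespace Vale.Agent.P207Z.MET

variable {X : Type*} {E : Type*} [NormedAddCommGroup E] [InnerProductSpace ℝ E]
  {τ : ℤ → X → X} {Φ : ℤ → X → E →L[ℝ] E} {L : ℝ}

/-- the vectors of the fibre with forward growth at most `a` -/
def Va (Φ : ℤ → X → E →L[ℝ] E) (x : X) (a : ℝ) : Submodule ℝ E where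
  carrier := {v | Φ 0 x v = v ∧ ∃ C : ℝ, ∀ n : ℕ, ‖Φ n x v‖ ≤ C * Real.exp (n * a)}
  zero_mem' := ⟨map_zero _, 0, fun n => by simp⟩
  add_mem' := by
    rintro v w ⟨h1, C, h2⟩ ⟨h3, D, h4⟩
    refine ⟨by rw [map_add, h1, h3], C + D, fun n => ?_⟩
    rw [map_add, add_mul]
    exact (norm_add_le _ _).trans (add_le_add (h2 n) (h4 n))
  smul_mem' := by
    rintro t v ⟨h1, C, h2⟩
    refine ⟨by rw [map_smul, h1], |t| * C, fun n => ?_⟩
    rw [map_smul, norm_smul, mul_assoc]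
    exact mul_le_mul_of_nonneg_left (h2 n) (abs_nonneg t)

/-- the smallest forward exponent -/
noncomputable def mu (Φ : ℤ → X → E →L[ℝ] E) (x : X) : ℝ := sInf {a | Va Φ x a ≠ ⊥}

/-- the slowest subspace -/
noncomputable def Vs (Φ : ℤ → X → E →L[ℝ] E) (x : X) : Submodule ℝ E :=
  ⨅ k : ℕ, Va Φ x (mu Φ x + 1 / ((k : ℝ) + 1))

lemma Va_mono (x : X) {a b : ℝ} (h : a ≤ b) : Va Φ x a ≤ Va Φ x b := by
  rintro v ⟨h1, C, h2⟩
  refine ⟨h1, C, fun n => (h2 n).trans ?_⟩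
  have hC : 0 ≤ C := by simpa using (norm_nonneg _).trans (h2 0)
  exact mul_le_mul_of_nonneg_left (Real.exp_le_exp.2
    (mul_le_mul_of_nonneg_left h (Nat.cast_nonneg n))) hC

lemma Va_map (hτ : Act τ) (h : Coc τ Φ L) (k : ℤ) {x : X} {a : ℝ} {v : E} (hv : v ∈ Va Φ x a) :
    Φ k x v ∈ Va Φ (τ k x) a := by
  obtain ⟨h1, C, h2⟩ := hv
  refine ⟨?_, Real.exp (L * (|(k : ℝ)| + 2)) * C, fun n => ?_⟩
  · rw [← ContinuousLinearMap.mul_apply, h.zero_mul]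
  · rw [← ContinuousLinearMap.mul_apply, ← h.add, add_comm, h.add, ContinuousLinearMap.mul_apply,
      mul_assoc]
    exact (h.apply_le _ _ _).trans (mul_le_mul_of_nonneg_left (h2 n) (Real.exp_pos _).le)

lemma Va_ne (hτ : Act τ) (h : Coc τ Φ L) (k : ℤ) {x : X} {a : ℝ} (hv : Va Φ x a ≠ ⊥) :
    Va Φ (τ k x) a ≠ ⊥ := by
  obtain ⟨v, hv, h0⟩ := Submodule.exists_mem_ne_zero_of_ne_bot hv
  refine (Submodule.ne_bot_iff _).2 ⟨_, Va_map hτ h k hv, fun h1 => h0 ?_⟩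
  rw [← hv.1, ← h.neg_mul k, ContinuousLinearMap.mul_apply, h1, map_zero]

lemma mu_inv (hτ : Act τ) (h : Coc τ Φ L) (k : ℤ) (x : X) : mu Φ (τ k x) = mu Φ x := by
  unfold mu
  congr 1
  ext a
  refine ⟨fun h1 => ?_, Va_ne hτ h k⟩
  have := Va_ne hτ h (-k) h1
  rwa [← hτ.add, neg_add_cancel, hτ.zero] at this

lemma mem_Va_L (h : Coc τ Φ L) {x : X} {v : E} (hv : Φ 0 x v = v) : v ∈ Va Φ x L := by
  refine ⟨hv, Real.exp (L * 2) * ‖v‖, fun n => (h.apply_le _ _ _).trans_eq ?_⟩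
  rw [mul_right_comm, ← Real.exp_add]
  congr 2
  push_cast
  rw [abs_of_nonneg (Nat.cast_nonneg n)]
  ring

lemma le_of_exp {a C : ℝ} {r : ℝ} (hr : 0 < r) (h : ∀ n : ℕ, r ≤ C * Real.exp (n * a)) : 0 ≤ a := by
  by_contra ha
  push Not at ha
  have h1 : Tendsto (fun n : ℕ => C * Real.exp (n * a)) atTop (𝓝 (C * 0)) :=
    (Real.tendsto_exp_atBot.comp (tendsto_natCast_atTop_atTop.atTop_mul_const_of_neg ha)).const_mul C
  have := ge_of_tendsto' h1 h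
  linarith

lemma Va_low (h : Coc τ Φ L) {x : X} {a : ℝ} (hv : Va Φ x a ≠ ⊥) : -L ≤ a := by
  obtain ⟨v, ⟨h1, C, h2⟩, h0⟩ := Submodule.exists_mem_ne_zero_of_ne_bot hv
  have := le_of_exp (a := L + a) (C := Real.exp (L * 2) * C) (norm_pos_iff.2 h0) fun n => by
    conv_lhs => rw [← h1, ← h.neg_mul n, ContinuousLinearMap.mul_apply]
    refine (h.apply_le _ _ _).trans ((mul_le_mul_of_nonneg_left (h2 n)
      (Real.exp_pos _).le).trans_eq ?_)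
    push_cast
    rw [abs_neg, abs_of_nonneg (Nat.cast_nonneg n), mul_add L, mul_add (n : ℝ), Real.exp_add,
      Real.exp_add, mul_comm L n]
    ring
  linarith

lemma Va_L_ne (hτ : Act τ) (h : Coc τ Φ L) {x : X} (hx : Φ 0 x ≠ 0) : Va Φ x L ≠ ⊥ := by
  obtain ⟨u, hu⟩ := DFunLike.ne_iff.1 hx
  refine (Submodule.ne_bot_iff _).2 ⟨Φ 0 x u, mem_Va_L h ?_, hu⟩
  rw [← ContinuousLinearMap.mul_apply, h.mul_zero hτ]

lemma Va_bot {x : X} (hx : Φ 0 x = 0) (a : ℝ) : Va Φ x a = ⊥ := by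
  rw [eq_bot_iff]
  rintro v ⟨h1, -⟩
  rw [hx] at h1
  exact h1.symm

lemma mu_zero {x : X} (hx : Φ 0 x = 0) : mu Φ x = 0 := by
  simp [mu, Va_bot hx]

lemma mu_le (h : Coc τ Φ L) {x : X} {a : ℝ} (hv : Va Φ x a ≠ ⊥) : mu Φ x ≤ a :=
  csInf_le ⟨-L, fun _ hb => Va_low h hb⟩ hv

lemma Va_ne_of_lt (hτ : Act τ) (h : Coc τ Φ L) {x : X} (hx : Φ 0 x ≠ 0) {a : ℝ}
    (ha : mu Φ x < a) : Va Φ x a ≠ ⊥ := by
  obtain ⟨b, hb, hba⟩ := exists_lt_of_csInf_lt ⟨L, Va_L_ne hτ h hx⟩ ha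
  exact fun h0 => hb (eq_bot_iff.2 ((Va_mono x hba.le).trans h0.le))

lemma abs_mu_le (hτ : Act τ) (h : Coc τ Φ L) (x : X) : |mu Φ x| ≤ L := by
  by_cases hx : Φ 0 x = 0
  · rw [mu_zero hx, abs_zero]
    exact h.nn
  · exact abs_le.2 ⟨le_csInf ⟨L, Va_L_ne hτ h hx⟩ fun _ hb => Va_low h hb,
      mu_le h (Va_L_ne hτ h hx)⟩

lemma mem_Vs {x : X} {v : E} : v ∈ Vs Φ x ↔ ∀ ε, 0 < ε → v ∈ Va Φ x (mu Φ x + ε) := by
  rw [Vs, Submodule.mem_iInf]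
  refine ⟨fun h ε hε => ?_, fun h k => h _ Nat.one_div_pos_of_nat⟩
  obtain ⟨k, hk⟩ := exists_nat_one_div_lt hε
  exact Va_mono x (by linarith) (h k)

lemma Vs_map (hτ : Act τ) (h : Coc τ Φ L) (k : ℤ) {x : X} {v : E} (hv : v ∈ Vs Φ x) :
    Φ k x v ∈ Vs Φ (τ k x) := by
  rw [mem_Vs] at hv ⊢
  intro ε hε
  rw [mu_inv hτ h]
  exact Va_map hτ h k (hv ε hε)

lemma Vs_fix {x : X} {v : E} (hv : v ∈ Vs Φ x) : Φ 0 x v = v := (mem_Vs.1 hv 1 one_pos).1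

variable [FiniteDimensional ℝ E]

lemma Vs_eq (Φ : ℤ → X → E →L[ℝ] E) (x : X) :
    ∃ k : ℕ, Vs Φ x = Va Φ x (mu Φ x + 1 / ((k : ℝ) + 1)) := by
  have ha : Antitone fun k : ℕ => Va Φ x (mu Φ x + 1 / ((k : ℝ) + 1)) := fun a b hab =>
    Va_mono x (by linarith [Nat.one_div_le_one_div (α := ℝ) hab])
  obtain ⟨k, hk⟩ := IsArtinian.monotone_stabilizes
    (⟨fun k => OrderDual.toDual (Va Φ x (mu Φ x + 1 / ((k : ℝ) + 1))), ha⟩ :
      ℕ →o (Submodule ℝ E)ᵒᵈ)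
  refine ⟨k, le_antisymm (iInf_le _ k) (le_iInf fun j => ?_)⟩
  rcases le_total j k with hj | hj
  · exact ha hj
  · exact (hk j hj).ge

lemma Vs_ne (hτ : Act τ) (h : Coc τ Φ L) {x : X} (hx : Φ 0 x ≠ 0) : Vs Φ x ≠ ⊥ := by
  obtain ⟨k, hk⟩ := Vs_eq Φ x
  rw [hk]
  exact Va_ne_of_lt hτ h hx (lt_add_of_pos_right _ Nat.one_div_pos_of_nat)

/-- the orthogonal projection on the slowest subspace -/
noncomputable def Pr (Φ : ℤ → X → E →L[ℝ] E) (x : X) : E →L[ℝ] E := (Vs Φ x).starProjection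

lemma Pr_mem (x : X) (u : E) : Pr Φ x u ∈ Vs Φ x := Submodule.starProjection_apply_mem _ _

lemma Pr_fix {x : X} {u : E} (h : u ∈ Vs Φ x) : Pr Φ x u = u :=
  Submodule.starProjection_eq_self_iff.2 h

lemma Pr_norm (x : X) : ‖Pr Φ x‖ ≤ 1 := Submodule.starProjection_norm_le _

lemma Pr_norm' (x : X) : ‖1 - Pr Φ x‖ ≤ 1 := by
  rw [Pr, ← Submodule.starProjection_orthogonal']
  exact Submodule.starProjection_norm_le _

lemma Pr_idem (x : X) : Pr Φ x * Pr Φ x = Pr Φ x := by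
  ext u
  exact Pr_fix (Pr_mem x u)

lemma zero_Pr (x : X) : Φ 0 x * Pr Φ x = Pr Φ x := by
  ext u
  exact Vs_fix (Pr_mem x u)

lemma Pr_inv (hτ : Act τ) (h : Coc τ Φ L) (n : ℤ) (x : X) :
    Pr Φ (τ n x) * (Φ n x * Pr Φ x) = Φ n x * Pr Φ x := by
  ext u
  exact Pr_fix (Vs_map hτ h n (Pr_mem x u))

lemma Pr_ne (hτ : Act τ) (h : Coc τ Φ L) {x : X} (hx : Φ 0 x ≠ 0) : Pr Φ x ≠ 0 := by
  obtain ⟨v, hv, h0⟩ := Submodule.exists_mem_ne_zero_of_ne_bot (Vs_ne hτ h hx)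
  intro h1
  apply h0
  rw [← Pr_fix hv, h1]
  rfl

/-- the forward bound on the slowest subspace -/
lemma up_bound (x : X) {ε : ℝ} (hε : 0 < ε) :
    ∃ C : ℝ, ∀ n : ℕ, ‖Φ n x * Pr Φ x‖ ≤ C * Real.exp (n * (mu Φ x + ε)) := by
  obtain ⟨C, hC⟩ := banach_steinhaus
    (g := fun n : ℕ => (Real.exp (n * (mu Φ x + ε)))⁻¹ • (Φ n x * Pr Φ x)) fun u => by
      obtain ⟨-, C, hC⟩ := mem_Vs.1 (Pr_mem (Φ := Φ) x u) ε hε
      refine ⟨C, fun n => ?_⟩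
      rw [ContinuousLinearMap.smul_apply, norm_smul, Real.norm_of_nonneg (by positivity),
        inv_mul_le_iff₀' (Real.exp_pos _)]
      exact hC n
  refine ⟨C, fun n => ?_⟩
  have := hC n
  rwa [norm_smul, Real.norm_of_nonneg (by positivity), inv_mul_le_iff₀' (Real.exp_pos _)] at this

/-- the quotient cocycle -/
noncomputable def Qt (τ : ℤ → X → X) (Φ : ℤ → X → E →L[ℝ] E) (n : ℤ) (x : X) : E →L[ℝ] E :=
  (1 - Pr Φ (τ n x)) * Φ n x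

lemma Qt_Pr (hτ : Act τ) (h : Coc τ Φ L) (n : ℤ) (x : X) : Qt τ Φ n x * Pr Φ x = 0 := by
  rw [Qt, mul_assoc, sub_mul, one_mul, Pr_inv hτ h, sub_self]

lemma Coc.qt (hτ : Act τ) (h : Coc τ Φ L) : Coc τ (Qt τ Φ) L := by
  refine ⟨fun m n x => ?_, h.nn, fun n x => (norm_mul_le _ _).trans ?_⟩
  · conv_rhs => rw [Qt.eq_1 τ Φ n, ← mul_assoc, mul_sub, mul_one, Qt_Pr hτ h, sub_zero]
    rw [Qt, Qt, h.add, hτ.add, mul_assoc]
  · exact (mul_le_mul (Pr_norm' _) (h.bd n x) (norm_nonneg _) zero_le_one).trans_eq (one_mul _)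

lemma rank_qt (hτ : Act τ) (h : Coc τ Φ L) {x : X} {k : ℕ}
    (hk : Module.finrank ℝ (Φ 0 x).range ≤ k + 1) :
    Module.finrank ℝ (Qt τ Φ 0 x).range ≤ k := by
  have hle : (Qt τ Φ 0 x).range ≤ (Φ 0 x).range := by
    rintro _ ⟨u, rfl⟩
    refine ⟨Φ 0 x u - Pr Φ x (Φ 0 x u), ?_⟩
    have e1 : Φ 0 x (Φ 0 x u) = Φ 0 x u := by
      rw [← ContinuousLinearMap.mul_apply, h.mul_zero hτ]
    simp [Qt, hτ.zero, e1, Vs_fix (Pr_mem x _)]
  by_cases hx : Φ 0 x = 0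
  · have : (Qt τ Φ 0 x).range = ⊥ := by
      rw [eq_bot_iff]
      rintro _ ⟨u, rfl⟩
      simp [Qt, hx]
    rw [this, finrank_bot]
    exact Nat.zero_le _
  obtain ⟨v, hv, h0⟩ := Submodule.exists_mem_ne_zero_of_ne_bot (Vs_ne hτ h hx)
  have hlt : (Qt τ Φ 0 x).range < (Φ 0 x).range := by
    refine lt_of_le_of_ne hle fun he => h0 ?_
    have h1 : v ∈ (Qt τ Φ 0 x).range := he ▸ ⟨v, Vs_fix hv⟩
    obtain ⟨u, hu⟩ := h1
    have h2 : Pr Φ x v = 0 := by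
      rw [← hu]
      simp [Qt, hτ.zero, Pr_fix (Pr_mem x _)]
    rw [← Pr_fix hv, h2]
  have := Submodule.finrank_lt_finrank_of_lt hlt
  omega

section meas

variable [MeasurableSpace X]

lemma meas_Va (hm : ∀ n, Measurable (Φ n)) {K : Set E} (hK : IsCompact K) {a : X → ℝ}
    (ha : Measurable a) : MeasurableSet {x | ∃ w ∈ K, w ∈ Va Φ x (a x)} := by
  have e : {x | ∃ w ∈ K, w ∈ Va Φ x (a x)} = ⋃ C : ℕ, {x | ∃ w ∈ K, Φ (0 : ℕ) x w = w ∧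
      ∀ n ∈ (univ : Set ℕ), ‖Φ n x w‖ ≤ C * Real.exp (n * a x)} := by
    ext x
    simp only [mem_setOf_eq, mem_iUnion]
    constructor
    · rintro ⟨w, hw, h1, C, h2⟩
      obtain ⟨N, hN⟩ := exists_nat_ge C
      exact ⟨N, w, hw, h1, fun n _ => (h2 n).trans
        (mul_le_mul_of_nonneg_right hN (Real.exp_pos _).le)⟩
    · rintro ⟨C, w, hw, h1, h2⟩
      exact ⟨w, hw, h1, C, fun n => h2 n trivial⟩
  rw [e]
  exact MeasurableSet.iUnion fun C => meas_ex (A := fun n : ℕ => Φ n) hK (fun n => hm n)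
    (fun n => (ha.const_mul _).exp.const_mul _) univ

lemma ne_bot_iff_sphere (W : Submodule ℝ E) : W ≠ ⊥ ↔ ∃ w ∈ Metric.sphere (0 : E) 1, w ∈ W := by
  constructor
  · intro h
    obtain ⟨v, hv, h0⟩ := Submodule.exists_mem_ne_zero_of_ne_bot h
    exact ⟨‖v‖⁻¹ • v, by simp [norm_smul, h0], W.smul_mem _ hv⟩
  · rintro ⟨w, hw, h⟩
    refine (Submodule.ne_bot_iff _).2 ⟨w, h, ?_⟩
    rintro rfl
    simp at hw

lemma meas_mu (hτ : Act τ) (h : Coc τ Φ L) (hm : ∀ n, Measurable (Φ n)) : Measurable (mu Φ) := by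
  refine measurable_of_Iio fun a => ?_
  have e : mu Φ ⁻¹' Iio a = ({x | Φ 0 x = 0} ∩ {_x | 0 < a}) ∪
      ⋃ q : ℚ, ({_x | (q : ℝ) < a} ∩ {x | ∃ w ∈ Metric.sphere (0 : E) 1, w ∈ Va Φ x q}) := by
    ext x
    simp only [mem_preimage, mem_Iio, mem_union, mem_inter_iff, mem_setOf_eq, mem_iUnion,
      ← ne_bot_iff_sphere]
    constructor
    · intro h1
      by_cases hx : Φ 0 x = 0
      · exact Or.inl ⟨hx, mu_zero hx ▸ h1⟩
      · obtain ⟨q, h2, h3⟩ := exists_rat_btwn h1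
        exact Or.inr ⟨q, h3, Va_ne_of_lt hτ h hx h2⟩
    · rintro (⟨hx, h1⟩ | ⟨q, h1, h2⟩)
      · rwa [mu_zero hx]
      · exact (mu_le h h2).trans_lt h1
  rw [e]
  exact ((hm 0 (measurableSet_singleton 0)).inter (MeasurableSet.const _)).union
    (MeasurableSet.iUnion fun q => (MeasurableSet.const _).inter
      (meas_Va hm (isCompact_sphere _ _) measurable_const))

lemma meas_Pr (hτ : Act τ) (h : Coc τ Φ L) (hm : ∀ n, Measurable (Φ n)) : Measurable (Pr Φ) := by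
  refine meas_proj fun u r => ?_
  have e : {x | ∃ w ∈ Vs Φ x, ‖u - w‖ ≤ r} = ⋂ k : ℕ,
      {x | ∃ w ∈ Metric.closedBall u r, w ∈ Va Φ x (mu Φ x + 1 / ((k : ℝ) + 1))} := by
    ext x
    simp only [mem_setOf_eq, mem_iInter, mem_closedBall_iff_norm']
    constructor
    · rintro ⟨w, hw, h1⟩ k
      exact ⟨w, h1, (Submodule.mem_iInf _).1 hw k⟩
    · intro h1
      obtain ⟨k, hk⟩ := Vs_eq Φ x
      obtain ⟨w, h2, h3⟩ := h1 k
      exact ⟨w, hk ▸ h3, h2⟩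
  rw [e]
  exact MeasurableSet.iInter fun k => meas_Va hm (isCompact_closedBall _ _)
    ((meas_mu hτ h hm).add_const _)

lemma meas_Qt (hτ : Act τ) (hτm : ∀ n, Measurable (τ n)) (h : Coc τ Φ L)
    (hm : ∀ n, Measurable (Φ n)) (n : ℤ) : Measurable (Qt τ Φ n) :=
  (measurable_const.sub ((meas_Pr hτ h hm).comp (hτm n))).mul (hm n)

end meas

end Vale.Agent.P207Z.MET
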