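import Vale.Agent.P207Z.MET.Tile

/-!
# The induction step: gap, invariant complement
-/

set_option linter.all false

open MeasureTheory Filter Topology Set

namespace Vale.Agent.P207Z.MET

variable {X : Type*} {E : Type*} [NormedAddCommGroup E] [InnerProductSpace ℝ E]
  [FiniteDimensional ℝ E] {τ : ℤ → X → X} {Φ : ℤ → X → E →L[ℝ] E} {L : ℝ}

lemma nn_of_exp {a C t : ℝ} (ha : 0 ≤ a) (h : a ≤ C * Real.exp t) : 0 ≤ C :=
  nonneg_of_mul_nonneg_left (ha.trans h) (Real.exp_pos t)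

lemma Qt_zero (hτ : Act τ) (x : X) : Qt τ Φ 0 x = (1 - Pr Φ x) * Φ 0 x := by
  rw [Qt, hτ.zero]

lemma gap_bound (hτ : Act τ) (h : Coc τ Φ L) {x : X}
    (hb : Bd τ (fun n y => Φ n y * Pr Φ y) x (mu Φ x)) {W : E →L[ℝ] E} (hW : Qt τ Φ 0 x * W = W)
    (hq : ∀ ε, 0 < ε → ∃ C : ℝ, ∀ n : ℕ, ‖Qt τ Φ n x * W‖ ≤ C * Real.exp (n * (mu Φ x + ε))) :
    W = 0 := by
  have hL := h.nn
  have hPW : Pr Φ x * W = 0 := by
    rw [← hW, Qt_zero hτ, ← mul_assoc, ← mul_assoc, mul_sub, mul_one, Pr_idem, sub_self, zero_mul,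
      zero_mul]
  have h0 : ∀ n y, Φ 0 (τ n y) * Qt τ Φ n y = Qt τ Φ n y := fun n y => by
    rw [Qt, ← mul_assoc, mul_sub, mul_one, zero_Pr, sub_mul, sub_mul, h.zero_mul, one_mul]
  have hW0 : Φ 0 x * W = W := by
    have := h0 0 x
    rw [hτ.zero] at this
    rw [← hW, ← mul_assoc, this]
  have key : ∀ ε, 0 < ε → ∃ C : ℝ, ∀ n : ℕ, ‖Φ n x * W‖ ≤ C * Real.exp (n * (mu Φ x + ε)) := by
    intro ε hε
    set l := mu Φ x with hl
    have hl1 : -L ≤ l := (abs_le.1 (abs_mu_le hτ h x)).1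
    obtain ⟨C, hC⟩ := hb (ε / 3) (by positivity)
    obtain ⟨D, hD⟩ := hq (ε / 3) (by positivity)
    have hC0 : 0 ≤ C := nn_of_exp (norm_nonneg _) (hC 0 0)
    have hD0 : 0 ≤ D := nn_of_exp (norm_nonneg _) (hD 0)
    refine ⟨D + 3 / ε * (C * D * Real.exp (4 * L)), fun n => ?_⟩
    set B := C * D * Real.exp (4 * L) * Real.exp (n * (l + 2 * (ε / 3))) with hB
    have tel : ∀ j : ℕ, j ≤ n →
        ‖Φ n x * W - Φ ((n : ℤ) - j) (τ j x) * (Qt τ Φ j x * W)‖ ≤ j * B := by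
      intro j
      induction j with
      | zero =>
        intro _
        simp [hτ.zero, hW]
      | succ j ih =>
        intro hj
        have e : Φ ((n : ℤ) - j) (τ j x) * (Qt τ Φ j x * W) -
            Φ ((n : ℤ) - (j + 1 : ℕ)) (τ (j + 1 : ℕ) x) * (Qt τ Φ (j + 1 : ℕ) x * W) =
            (Φ ((n : ℤ) - (j + 1 : ℕ)) (τ (j + 1 : ℕ) x) * Pr Φ (τ (j + 1 : ℕ) x)) *
              (Φ 1 (τ j x) * (Qt τ Φ j x * W)) := by
          have e1 : τ (j + 1 : ℕ) x = τ 1 (τ j x) := hτ.add' (by push_cast; ring) x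
          rw [(h.qt hτ).add' (k := (j + 1 : ℕ)) (m := 1) (n := j) (by push_cast; ring),
            h.add' (k := (n : ℤ) - j) (m := (n : ℤ) - (j + 1 : ℕ)) (n := 1) (by push_cast; ring),
            Qt.eq_1 τ Φ 1, ← e1]
          noncomm_ring
        have b1 := hC (j + 1 : ℕ) ((n : ℤ) - (j + 1 : ℕ))
        have b2 := h.bd 1 (τ j x)
        have b3 := hD j
        have hjn : (j : ℝ) + 1 ≤ n := by exact_mod_cast hj
        have hj0 : (0 : ℝ) ≤ j := Nat.cast_nonneg j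
        have b4 : ‖(Φ ((n : ℤ) - (j + 1 : ℕ)) (τ (j + 1 : ℕ) x) * Pr Φ (τ (j + 1 : ℕ) x)) *
              (Φ 1 (τ j x) * (Qt τ Φ j x * W))‖ ≤ B := by
          refine (norm_mul_le _ _).trans ((mul_le_mul b1 ((norm_mul_le _ _).trans
            (mul_le_mul b2 b3 (norm_nonneg _) (Real.exp_pos _).le)) (norm_nonneg _)
            (by positivity)).trans ?_)
          rw [hB, mul_left_comm (Real.exp _) D, mul_mul_mul_comm, mul_assoc (C * D),
            ← Real.exp_add, ← Real.exp_add, ← Real.exp_add]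
          refine mul_le_mul_of_nonneg_left (Real.exp_le_exp.2 ?_) (by positivity)
          push_cast
          rw [abs_of_nonneg (by linarith), abs_of_nonneg (by linarith), abs_one]
          nlinarith [mul_le_mul_of_nonneg_left hjn hε.le]
        rw [← sub_add_sub_cancel _ (Φ ((n : ℤ) - j) (τ j x) * (Qt τ Φ j x * W)), e]
        refine (norm_add_le _ _).trans ((add_le_add (ih (by omega)) b4).trans_eq ?_)
        push_cast
        ring
    have t1 := tel n le_rfl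
    rw [sub_self, ← mul_assoc, h0] at t1
    have t2 : ‖Φ n x * W‖ ≤ ‖Qt τ Φ n x * W‖ + n * B := by
      linarith [norm_sub_norm_le (Φ n x * W) (Qt τ Φ n x * W)]
    have hn0 : (0 : ℝ) ≤ n := Nat.cast_nonneg n
    have t3 : ‖Qt τ Φ n x * W‖ ≤ D * Real.exp (n * (l + ε)) := (hD n).trans
      (mul_le_mul_of_nonneg_left (Real.exp_le_exp.2 (mul_le_mul_of_nonneg_left (by linarith) hn0))
        hD0)
    have t4 : (n : ℝ) ≤ 3 / ε * Real.exp (n * (ε / 3)) := by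
      have := Real.add_one_le_exp (n * (ε / 3))
      rw [div_mul_eq_mul_div, le_div_iff₀ hε]
      linarith
    have t5 : n * B ≤ 3 / ε * (C * D * Real.exp (4 * L)) * Real.exp (n * (l + ε)) := by
      refine (mul_le_mul_of_nonneg_right t4 (by positivity)).trans_eq ?_
      rw [hB, show (n : ℝ) * (l + ε) = n * (ε / 3) + n * (l + 2 * (ε / 3)) by ring, Real.exp_add]
      ring
    linarith
  ext u
  have h1 : W u ∈ Vs Φ x := mem_Vs.2 fun ε hε => by
    obtain ⟨C, hC⟩ := key ε hε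
    refine ⟨by rw [← ContinuousLinearMap.mul_apply, hW0], C * ‖u‖, fun n => ?_⟩
    rw [← ContinuousLinearMap.mul_apply, mul_right_comm]
    exact (Φ n x * W).le_of_opNorm_le (hC n) u
  rw [← Pr_fix h1, ← ContinuousLinearMap.mul_apply, hPW]

variable {d : ℕ} {P : Fin d → X → E →L[ℝ] E} {lam : Fin d → X → ℝ}

lemma gap (hτ : Act τ) (h : Coc τ Φ L) {x : X}
    (hb : Bd τ (fun n y => Φ n y * Pr Φ y) x (mu Φ x)) (g : Good τ (Qt τ Φ) P lam x) (i : Fin d)
    (hi : P i x ≠ 0) : mu Φ x < lam i x := by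
  by_contra hc
  push Not at hc
  refine hi (gap_bound hτ h hb (g.left i) fun ε hε => ?_)
  obtain ⟨C, hC⟩ := g.bd i ε hε
  refine ⟨C, fun n => ?_⟩
  have h1 := hC 0 n
  have hC0 : 0 ≤ C := nn_of_exp (norm_nonneg _) h1
  rw [hτ.zero] at h1
  refine h1.trans (mul_le_mul_of_nonneg_left (Real.exp_le_exp.2 ?_) hC0)
  have hn0 : (0 : ℝ) ≤ n := Nat.cast_nonneg n
  push_cast
  rw [abs_of_nonneg hn0, abs_zero]
  nlinarith [mul_le_mul_of_nonneg_left hc hn0]

omit [FiniteDimensional ℝ E] in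
lemma Good.zero_orbit (hτ : Act τ) (h : Coc τ Φ L) {x : X} (g : ∀ m, Good τ Φ P lam (τ m x))
    {i : Fin d} (hi : P i x = 0) (m : ℤ) : P i (τ m x) = 0 := by
  have g0 := g 0
  rw [hτ.zero] at g0
  rw [← (g m).right i, ← h.mul_neg hτ, ← mul_assoc, ← g0.eqv, hi, mul_zero, zero_mul]

omit [FiniteDimensional ℝ E] in
lemma back_bound (hτ : Act τ) (h : Coc τ Φ L) {x : X} (g : ∀ m, Good τ Φ P lam (τ m x)) {l : ℝ}
    (hl : ∀ i, P i x ≠ 0 → l < lam i x) : ∃ l', l < l' ∧ ∀ ε, 0 < ε → ∃ C : ℝ, ∀ (m : ℤ) (N : ℕ),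
      ‖Φ (-N) (τ m x)‖ ≤ C * Real.exp (-(N * l') + ε * (N + |(m : ℝ)|)) := by
  classical
  have g0 := g 0
  rw [hτ.zero] at g0
  obtain ⟨l', h1, h2⟩ : ∃ l', l < l' ∧ ∀ i, P i x ≠ 0 → l' ≤ lam i x := by
    have : ∀ᶠ t in 𝓝[>] l, ∀ i, P i x ≠ 0 → t ≤ lam i x := eventually_all.2 fun i => by
      by_cases hi : P i x = 0
      · exact Eventually.of_forall fun t h => absurd hi h
      · exact ((eventually_le_nhds (hl i hi)).filter_mono nhdsWithin_le_nhds).mono fun t ht _ => ht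
    exact (eventually_mem_nhdsWithin.and this).exists
  refine ⟨l', h1, fun ε hε => ?_⟩
  choose C hC using fun i => g0.bd i ε hε
  refine ⟨∑ i, C i, fun m N => ?_⟩
  rw [← h.mul_zero hτ, ← (g m).sum, Finset.mul_sum, Finset.sum_mul]
  refine (norm_sum_le _ _).trans (Finset.sum_le_sum fun i _ => ?_)
  have hC0 : 0 ≤ C i := nn_of_exp (norm_nonneg _) (hC i 0 0)
  by_cases hi : P i x = 0
  · rw [Good.zero_orbit hτ h g hi, mul_zero, norm_zero]
    positivity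
  · refine (hC i m (-N)).trans (mul_le_mul_of_nonneg_left (Real.exp_le_exp.2 ?_) hC0)
    have hn0 : (0 : ℝ) ≤ N := Nat.cast_nonneg N
    push_cast
    rw [abs_neg, abs_of_nonneg hn0]
    nlinarith [mul_le_mul_of_nonneg_left (h2 i hi) hn0]

/-- the approximate invariant projections -/
noncomputable def qn (τ : ℤ → X → X) (Φ : ℤ → X → E →L[ℝ] E) (N : ℕ) (y : X) : E →L[ℝ] E :=
  Φ N (τ (-N) y) * Pr Φ (τ (-N) y) * Φ (-N) y

/-- the invariant projection on the slowest subspace -/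
noncomputable def Ql (τ : ℤ → X → X) (Φ : ℤ → X → E →L[ℝ] E) (y : X) : E →L[ℝ] E :=
  limUnder atTop fun N => qn τ Φ N y

lemma Pr_qn (hτ : Act τ) (h : Coc τ Φ L) (N : ℕ) (y : X) : Pr Φ y * qn τ Φ N y = qn τ Φ N y := by
  have := Pr_inv hτ h N (τ (-N) y)
  rw [← hτ.add, add_neg_cancel, hτ.zero] at this
  rw [qn, ← mul_assoc, this]

lemma qn_Pr (hτ : Act τ) (h : Coc τ Φ L) (N : ℕ) (y : X) : qn τ Φ N y * Pr Φ y = Pr Φ y := by
  rw [qn, mul_assoc, mul_assoc, Pr_inv hτ h, ← mul_assoc, ← h.add, add_neg_cancel, zero_Pr]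

lemma qn_zero (hτ : Act τ) (h : Coc τ Φ L) (N : ℕ) (y : X) : qn τ Φ N y * Φ 0 y = qn τ Φ N y := by
  rw [qn, mul_assoc, h.mul_zero hτ]

lemma qn_diff (hτ : Act τ) (h : Coc τ Φ L) (N : ℕ) (y : X) :
    qn τ Φ (N + 1) y - qn τ Φ N y = (Φ N (τ (-N) y) * Pr Φ (τ (-N) y)) *
      (qn τ Φ 1 (τ (-N) y) * Qt τ Φ (-N) y) := by
  set z := τ (-N) y with hz
  have e1 : τ (-((N + 1 : ℕ) : ℤ)) y = τ (-((1 : ℕ) : ℤ)) z := hτ.add' (by push_cast; ring) y
  have e2 : τ ((1 : ℕ) : ℤ) (τ (-((1 : ℕ) : ℤ)) z) = z := by rw [← hτ.add, add_neg_cancel, hτ.zero]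
  have e3 : qn τ Φ (N + 1) y = Φ N z * qn τ Φ 1 z * Φ (-N) y := by
    rw [qn, qn, e1, h.add' (k := (N + 1 : ℕ)) (m := N) (n := (1 : ℕ)) (by push_cast; ring), e2,
      h.add' (k := -((N + 1 : ℕ) : ℤ)) (m := -((1 : ℕ) : ℤ)) (n := -N) (by push_cast; ring)]
    noncomm_ring
  have e4 := Pr_qn hτ h 1 z
  have e5 := qn_Pr hτ h 1 z
  rw [e3, qn.eq_1 τ Φ N, Qt, ← hz, mul_assoc _ (Pr Φ z), mul_assoc _ (Pr Φ z), ← mul_assoc (Pr Φ z),
    e4, ← mul_assoc (qn τ Φ 1 z), mul_sub, mul_one, e5]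
  noncomm_ring

lemma Ql_lim (hτ : Act τ) (h : Coc τ Φ L) {x : X}
    (hb : Bd τ (fun n y => Φ n y * Pr Φ y) x (mu Φ x)) {l' : ℝ} (hl : mu Φ x < l')
    (hq : ∀ ε, 0 < ε → ∃ C : ℝ, ∀ (m : ℤ) (N : ℕ),
      ‖Qt τ Φ (-N) (τ m x)‖ ≤ C * Real.exp (-(N * l') + ε * (N + |(m : ℝ)|))) :
    (∀ m, Tendsto (fun N => qn τ Φ N (τ m x)) atTop (𝓝 (Ql τ Φ (τ m x)))) ∧
      ∀ ε, 0 < ε → ∃ C : ℝ, ∀ m : ℤ, ‖Ql τ Φ (τ m x)‖ ≤ C * Real.exp (ε * |(m : ℝ)|) := by
  have hL := h.nn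
  set l := mu Φ x with hl0
  set r := Real.exp (-((l' - l) / 2)) with hr
  have hr1 : r < 1 := Real.exp_lt_one_iff.2 (by linarith)
  have hq1 : ∀ y, ‖qn τ Φ 1 y‖ ≤ Real.exp (L * 6) := fun y => by
    rw [qn, show L * 6 = L * 3 + L * 3 by ring, Real.exp_add]
    refine (norm_mul_le _ _).trans (mul_le_mul ((norm_mul_le _ _).trans
      ((mul_le_of_le_one_right (norm_nonneg _) (Pr_norm _)).trans ((h.bd _ _).trans_eq ?_)))
      ((h.bd _ _).trans_eq ?_) (norm_nonneg _) (Real.exp_pos _).le)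
    · norm_num
    · norm_num
  have key : ∀ ε, 0 < ε → ε ≤ (l' - l) / 6 → ∃ C : ℝ, 0 ≤ C ∧ ∀ (m : ℤ) (N : ℕ),
      dist (qn τ Φ N (τ m x)) (qn τ Φ (N + 1) (τ m x))
        ≤ C * Real.exp (2 * ε * |(m : ℝ)|) * r ^ N := by
    intro ε hε hε'
    obtain ⟨C, hC⟩ := hb ε hε
    obtain ⟨D, hD⟩ := hq ε hε
    have hC0 : 0 ≤ C := nn_of_exp (norm_nonneg _) (hC 0 0)
    have hD0 : 0 ≤ D := nn_of_exp (norm_nonneg _) (hD 0 0)
    refine ⟨C * D * Real.exp (L * 6), by positivity, fun m N => ?_⟩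
    rw [dist_comm, dist_eq_norm, qn_diff hτ h]
    have b1 := hC (-N + m) N
    rw [hτ.add] at b1
    refine (norm_mul_le _ _).trans ((mul_le_mul b1 ((norm_mul_le _ _).trans
      (mul_le_mul (hq1 _) (hD m N) (norm_nonneg _) (Real.exp_pos _).le)) (norm_nonneg _)
      (by positivity)).trans ?_)
    rw [hr, ← Real.exp_nat_mul, mul_left_comm (Real.exp _) D, mul_mul_mul_comm, mul_assoc (C * D),
      mul_assoc (C * D), ← Real.exp_add, ← Real.exp_add, ← Real.exp_add, ← Real.exp_add]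
    refine mul_le_mul_of_nonneg_left (Real.exp_le_exp.2 ?_) (by positivity)
    have hn0 : (0 : ℝ) ≤ N := Nat.cast_nonneg N
    have h1 : |(-(N : ℝ) + m)| ≤ N + |(m : ℝ)| := by
      refine (abs_add_le _ _).trans_eq ?_
      rw [abs_neg, abs_of_nonneg hn0]
    push_cast
    rw [abs_of_nonneg hn0]
    nlinarith [mul_le_mul_of_nonneg_left h1 hε.le, mul_le_mul_of_nonneg_left hε' hn0]
  have hlim : ∀ m, Tendsto (fun N => qn τ Φ N (τ m x)) atTop (𝓝 (Ql τ Φ (τ m x))) := fun m => by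
    obtain ⟨C, -, hC⟩ := key ((l' - l) / 6) (by linarith) le_rfl
    exact tendsto_nhds_limUnder (cauchySeq_tendsto_of_complete
      (cauchySeq_of_le_geometric r _ hr1 (hC m)))
  refine ⟨hlim, fun ε hε => ?_⟩
  obtain ⟨C, hC0, hC⟩ := key (min (ε / 2) ((l' - l) / 6)) (lt_min (by linarith) (by linarith))
    (min_le_right _ _)
  refine ⟨Real.exp (L * 4) + C / (1 - r), fun m => ?_⟩
  have h1 := dist_le_of_le_geometric_of_tendsto₀ r _ hr1 (hC m) (hlim m)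
  have h2 : ‖qn τ Φ 0 (τ m x)‖ ≤ Real.exp (L * 4) := by
    rw [qn, show L * 4 = L * 2 + L * 2 by ring, Real.exp_add]
    refine (norm_mul_le _ _).trans (mul_le_mul ((norm_mul_le _ _).trans
      ((mul_le_of_le_one_right (norm_nonneg _) (Pr_norm _)).trans ((h.bd _ _).trans_eq ?_)))
      ((h.bd _ _).trans_eq ?_) (norm_nonneg _) (Real.exp_pos _).le)
    · norm_num
    · norm_num
  have h3 : 1 ≤ Real.exp (ε * |(m : ℝ)|) := Real.one_le_exp (by positivity)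
  have h4 : Real.exp (2 * min (ε / 2) ((l' - l) / 6) * |(m : ℝ)|) ≤ Real.exp (ε * |(m : ℝ)|) :=
    Real.exp_le_exp.2 (mul_le_mul_of_nonneg_right
      (by linarith [min_le_left (ε / 2) ((l' - l) / 6)]) (abs_nonneg _))
  have h5 : 0 ≤ C / (1 - r) := div_nonneg hC0 (by linarith)
  rw [dist_eq_norm, mul_div_right_comm] at h1
  have h6 := norm_sub_norm_le (Ql τ Φ (τ m x)) (qn τ Φ 0 (τ m x))
  rw [norm_sub_rev] at h6
  nlinarith [mul_le_mul_of_nonneg_left h4 h5, mul_le_mul_of_nonneg_left h3 (Real.exp_pos (L * 4)).le]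

lemma tendsto_shift {R : Type*} [TopologicalSpace R] {f : ℤ → R} {a : R}
    (h : Tendsto (fun N : ℕ => f (-N)) atTop (𝓝 a)) (n : ℤ) :
    Tendsto (fun N : ℕ => f (-N + n)) atTop (𝓝 a) := by
  have h1 : Tendsto (fun N : ℕ => ((N : ℤ) - n).toNat) atTop atTop :=
    tendsto_atTop_atTop.2 fun b => ⟨b + n.natAbs, fun N hN => by omega⟩
  refine (h.comp h1).congr' ?_
  filter_upwards [eventually_ge_atTop n.natAbs] with N hN
  simp only [Function.comp_apply]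
  congr 1
  omega

lemma Ql_eqv (hτ : Act τ) (h : Coc τ Φ L) {y : X} {n : ℤ}
    (h1 : Tendsto (fun N => qn τ Φ N y) atTop (𝓝 (Ql τ Φ y)))
    (h2 : Tendsto (fun N => qn τ Φ N (τ n y)) atTop (𝓝 (Ql τ Φ (τ n y)))) :
    Φ n y * Ql τ Φ y = Ql τ Φ (τ n y) * Φ n y := by
  have h3 : Tendsto (fun N : ℕ => (fun s : ℤ => Φ (n - s) (τ s y) * Pr Φ (τ s y) * Φ s y) (-N))
      atTop (𝓝 (Φ n y * Ql τ Φ y)) := by
    refine (h1.const_mul (Φ n y)).congr fun N => ?_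
    have e : τ N (τ (-N) y) = y := by rw [← hτ.add, add_neg_cancel, hτ.zero]
    dsimp only
    rw [qn, h.add' (k := n - -N) (m := n) (n := N) (by ring), e]
    noncomm_ring
  refine tendsto_nhds_unique (tendsto_shift
    (f := fun s : ℤ => Φ (n - s) (τ s y) * Pr Φ (τ s y) * Φ s y) h3 n) ((h2.mul_const (Φ n y)).congr fun N => ?_)
  rw [qn, ← hτ.add, mul_assoc, ← h.add, show n - (-N + n) = N by ring]

/-- the deterministic induction step -/
theorem good_step (hτ : Act τ) (h : Coc τ Φ L) {x : X}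
    (hb : Bd τ (fun n y => Φ n y * Pr Φ y) x (mu Φ x))
    (g : ∀ m, Good τ (Qt τ Φ) P lam (τ m x)) :
    Good τ Φ (Fin.cons (Ql τ Φ) fun i y => (Φ 0 y - Ql τ Φ y) * P i y : Fin (d + 1) → _)
      (Fin.cons (mu Φ) lam) x := by
  have g0 := g 0
  rw [hτ.zero] at g0
  obtain ⟨l', hl, hq⟩ := back_bound hτ (h.qt hτ) g (gap hτ h hb g0)
  obtain ⟨hlim, hT⟩ := Ql_lim hτ h hb hl hq
  have a1 : ∀ m, Pr Φ (τ m x) * Ql τ Φ (τ m x) = Ql τ Φ (τ m x) := fun m =>
    tendsto_nhds_unique ((hlim m).const_mul _) ((hlim m).congr fun N => (Pr_qn hτ h N _).symm)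
  have a2 : ∀ m, Ql τ Φ (τ m x) * Pr Φ (τ m x) = Pr Φ (τ m x) := fun m =>
    tendsto_nhds_unique ((hlim m).mul_const _)
      (tendsto_const_nhds.congr fun N => (qn_Pr hτ h N _).symm)
  have a3 : ∀ m, Ql τ Φ (τ m x) * Φ 0 (τ m x) = Ql τ Φ (τ m x) := fun m =>
    tendsto_nhds_unique ((hlim m).mul_const _) ((hlim m).congr fun N => (qn_zero hτ h N _).symm)
  have a4 : ∀ m n, Φ n (τ m x) * Ql τ Φ (τ m x) = Ql τ Φ (τ n (τ m x)) * Φ n (τ m x) :=
    fun m n => Ql_eqv hτ h (hlim m) (by rw [← hτ.add]; exact hlim _)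
  have a5 : ∀ m n, Φ n (τ m x) * (Φ 0 (τ m x) - Ql τ Φ (τ m x)) =
      (Φ 0 (τ n (τ m x)) - Ql τ Φ (τ n (τ m x))) * Qt τ Φ n (τ m x) := fun m n => by
    have := a2 (n + m)
    rw [hτ.add] at this
    rw [Qt, ← mul_assoc, mul_sub _ 1, mul_one, sub_mul _ _ (Pr Φ _), zero_Pr, this, sub_self,
      sub_zero, sub_mul, h.zero_mul, mul_sub, h.mul_zero hτ, a4]
  have a6 : ∀ m i, P i (τ m x) * Pr Φ (τ m x) = 0 := fun m i => by
    rw [← (g m).right i, mul_assoc, Qt_Pr hτ h, mul_zero]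
  have a7 : ∀ m i, P i (τ m x) * Φ 0 (τ m x) = P i (τ m x) := fun m i => by
    rw [← (g m).right i, Qt, mul_assoc, mul_assoc, h.mul_zero hτ]
  have b1 := a1 0
  have b2 := a2 0
  have b3 := a3 0
  have b4 := a4 0
  have b5 := a5 0
  have b6 := a6 0
  have b7 := a7 0
  simp only [hτ.zero] at b1 b2 b3 b4 b5 b6 b7
  set Q := Ql τ Φ x with hQ
  have c1 : Q * Q = Q := by
    conv_lhs => rw [← b1, mul_assoc, ← mul_assoc Q, b2, b1, b1]
  have c2 : Φ 0 x * Q = Q := by rw [← b1, ← mul_assoc, zero_Pr]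
  have c3 : ∀ i, P i x * Q = 0 := fun i => by rw [← b1, ← mul_assoc, b6, zero_mul]
  have c4 : ∀ i, P i x * (Φ 0 x - Q) = P i x := fun i => by rw [mul_sub, b7, c3, sub_zero]
  have c5 : Q * (Φ 0 x - Q) = 0 := by rw [mul_sub, b3, c1, sub_self]
  have c6 : ∀ i, (1 - Pr Φ x) * ((Φ 0 x - Q) * P i x) = P i x := fun i => by
    rw [← mul_assoc, mul_sub, sub_mul 1 _ Q, one_mul, b1, sub_self, sub_zero, ← Qt_zero hτ, g0.left]
  refine ⟨?_, fun i => ?_, fun i j hij => ?_, fun n i => ?_, fun i j hij => ?_, fun i => ?_⟩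
  · rw [Fin.sum_univ_succ]
    simp only [Fin.cons_zero, Fin.cons_succ]
    have := b5 0
    rw [hτ.zero, mul_sub, h.mul_zero hτ, c2] at this
    rw [← Finset.mul_sum, g0.sum, ← this]
    abel
  · refine Fin.cases ?_ (fun i => ?_) i
    · exact c1
    · simp only [Fin.cons_succ]
      rw [mul_assoc, ← mul_assoc (P i x), c4, g0.idem]
  · revert hij
    refine Fin.cases ?_ (fun i => ?_) i <;> refine Fin.cases ?_ (fun j => ?_) j <;> intro hij
    · exact absurd rfl hij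
    · simp only [Fin.cons_succ, Fin.cons_zero]
      rw [← mul_assoc, c5, zero_mul]
    · simp only [Fin.cons_succ, Fin.cons_zero]
      rw [mul_assoc, c3, mul_zero]
    · simp only [Fin.cons_succ]
      rw [mul_assoc, ← mul_assoc (P i x), c4, g0.orth i j fun e => hij (by rw [e]), mul_zero]
  · refine Fin.cases ?_ (fun i => ?_) i
    · exact b4 n
    · simp only [Fin.cons_succ]
      rw [← mul_assoc, b5, mul_assoc, g0.eqv, mul_assoc, Qt, ← mul_assoc (P i _), mul_sub (P i _),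
        mul_one, a6, sub_zero]
  · revert hij
    refine Fin.cases ?_ (fun i => ?_) i <;> refine Fin.cases ?_ (fun j => ?_) j <;> intro hij
    · exact absurd hij (lt_irrefl _)
    · simp only [Fin.cons_succ, Fin.cons_zero]
      intro hj
      have h1 : P j x ≠ 0 := fun e => hj (by rw [e, mul_zero])
      refine ⟨fun e => ?_, gap hτ h hb g0 j h1⟩
      have h2 : Φ 0 x ≠ 0 := fun e' => h1 (by rw [← b7, e', mul_zero])
      exact Pr_ne hτ h h2 (by rw [← b2, hQ, e, zero_mul])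
    · exact absurd hij (Fin.not_lt_zero _)
    · simp only [Fin.cons_succ]
      intro hj
      have h1 : P j x ≠ 0 := fun e => hj (by rw [e, mul_zero])
      obtain ⟨h2, h3⟩ := g0.ord i j (Fin.succ_lt_succ_iff.1 hij) h1
      exact ⟨fun e => h2 (by rw [← c6, e, mul_zero]), h3⟩
  · refine Fin.cases ?_ (fun i => ?_) i
    · simp only [Fin.cons_zero]
      intro ε hε
      obtain ⟨C, hC⟩ := hb (ε / 2) (half_pos hε)
      obtain ⟨D, hD⟩ := hT (ε / 2) (half_pos hε)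
      have hC0 : 0 ≤ C := nn_of_exp (norm_nonneg _) (hC 0 0)
      have hD0 : 0 ≤ D := nn_of_exp (norm_nonneg _) (hD 0)
      refine ⟨C * D, fun m n => ?_⟩
      dsimp only
      rw [← a1, ← mul_assoc]
      refine (norm_mul_le _ _).trans ((mul_le_mul (hC m n) (hD m) (norm_nonneg _)
        (by positivity)).trans ?_)
      rw [mul_mul_mul_comm, ← Real.exp_add]
      refine mul_le_mul_of_nonneg_left (Real.exp_le_exp.2 ?_) (by positivity)
      nlinarith [mul_nonneg hε.le (abs_nonneg (n : ℝ))]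
    · simp only [Fin.cons_succ]
      intro ε hε
      obtain ⟨C, hC⟩ := g0.bd i (ε / 2) (half_pos hε)
      obtain ⟨D, hD⟩ := hT (ε / 2) (half_pos hε)
      have hC0 : 0 ≤ C := nn_of_exp (norm_nonneg _) (hC 0 0)
      have hD0 : 0 ≤ D := nn_of_exp (norm_nonneg _) (hD 0)
      refine ⟨(Real.exp (L * 2) + D) * C, fun m n => ?_⟩
      dsimp only
      rw [← mul_assoc, a5, mul_assoc, ← hτ.add]
      have h1 : ‖Φ 0 (τ (n + m) x) - Ql τ Φ (τ (n + m) x)‖ ≤
          (Real.exp (L * 2) + D) * Real.exp (ε / 2 * (|(n : ℝ)| + |(m : ℝ)|)) := by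
        have h2 : ‖Φ 0 (τ (n + m) x)‖ ≤ Real.exp (L * 2) := by simpa using h.bd 0 (τ (n + m) x)
        have h3 : 1 ≤ Real.exp (ε / 2 * (|(n : ℝ)| + |(m : ℝ)|)) := Real.one_le_exp (by positivity)
        have h4 : Real.exp (ε / 2 * |((n + m : ℤ) : ℝ)|) ≤
            Real.exp (ε / 2 * (|(n : ℝ)| + |(m : ℝ)|)) := Real.exp_le_exp.2
          (mul_le_mul_of_nonneg_left (by push_cast; exact abs_add_le _ _) (half_pos hε).le)
        refine (norm_sub_le _ _).trans ?_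
        nlinarith [hD (n + m), mul_le_mul_of_nonneg_left h4 hD0,
          mul_le_mul_of_nonneg_left h3 (Real.exp_pos (L * 2)).le]
      refine (norm_mul_le _ _).trans ((mul_le_mul h1 (hC m n) (norm_nonneg _)
        (by positivity)).trans_eq ?_)
      rw [mul_mul_mul_comm, ← Real.exp_add]
      congr 2
      ring

end Vale.Agent.P207Z.MET
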