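import Vale.Agent.P207Z.MET.Slow

/-!
# The tiling argument: the smallest exponent bounds the co-norm, and tempered bounds
-/

set_option linter.all false

open MeasureTheory Filter Topology Set

namespace Vale.Agent.P207Z.MET

variable {X : Type*} {E : Type*} [NormedAddCommGroup E] [InnerProductSpace ℝ E]
  {τ : ℤ → X → X} {Φ : ℤ → X → E →L[ℝ] E} {L : ℝ}

lemma tile_seq {w : ℕ → ℝ} {N : ℕ} {M : ℝ} (hM : 0 ≤ M)
    (h1 : ∀ j, ∃ n, 1 ≤ n ∧ n ≤ N ∧ w j ≤ w (j + n)) (h2 : ∀ j, w j - M ≤ w (j + 1)) (j : ℕ) :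
    w 0 - N * M ≤ w j := by
  have h3 : ∀ i k : ℕ, w i - k * M ≤ w (i + k) := fun i k => by
    induction k with
    | zero => simp
    | succ k ih =>
      have := h2 (i + k)
      rw [← add_assoc]
      push_cast
      linarith
  have h4 : ∃ i, i ≤ j ∧ j ≤ i + N ∧ w 0 ≤ w i := by
    induction j with
    | zero => exact ⟨0, le_rfl, Nat.zero_le _, le_rfl⟩
    | succ j ih =>
      obtain ⟨i, a, b, c⟩ := ih
      by_cases hj : j + 1 ≤ i + N
      · exact ⟨i, by omega, hj, c⟩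
      · obtain ⟨n, d, e, f⟩ := h1 i
        exact ⟨i + n, by omega, by omega, c.trans f⟩
  obtain ⟨i, a, b, c⟩ := h4
  obtain ⟨k, rfl⟩ := Nat.exists_eq_add_of_le a
  have h5 : (k : ℝ) ≤ N := by exact_mod_cast (by omega : k ≤ N)
  linarith [h3 i k, mul_le_mul_of_nonneg_right h5 hM]

/-- the points where every unit vector grows before the time `N` -/
def GN (Φ : ℤ → X → E →L[ℝ] E) (ε : ℝ) (N : ℕ) : Set X :=
  {y | ∃ w ∈ Metric.sphere (0 : E) 1, Φ (0 : ℕ) y w = w ∧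
    ∀ n ∈ Icc 1 N, ‖Φ (n : ℕ) y w‖ ≤ Real.exp (n * (mu Φ y - ε))}ᶜ

lemma GN_mono (ε : ℝ) : Monotone (GN Φ ε) := fun a b hab => compl_subset_compl.2 <| by
  rintro y ⟨w, h1, h2, h3⟩
  exact ⟨w, h1, h2, fun n hn => h3 n ⟨hn.1, hn.2.trans hab⟩⟩

lemma GN_grow {ε : ℝ} {N : ℕ} {y : X} (hy : y ∈ GN Φ ε N) {v : E} (hv : Φ 0 y v = v) (h0 : v ≠ 0) :
    ∃ n, 1 ≤ n ∧ n ≤ N ∧ Real.exp (n * (mu Φ y - ε)) * ‖v‖ ≤ ‖Φ (n : ℕ) y v‖ := by
  by_contra hc
  push Not at hc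
  have hn : 0 < ‖v‖ := norm_pos_iff.2 h0
  refine hy ⟨‖v‖⁻¹ • v, by simp [norm_smul, h0], ?_, fun n hn' => ?_⟩
  · rw [map_smul, Nat.cast_zero, hv]
  · rw [map_smul, norm_smul, norm_inv, norm_norm, inv_mul_le_iff₀' hn]
    exact (hc n hn'.1 hn'.2).le

variable [FiniteDimensional ℝ E]

lemma GN_all (h : Coc τ Φ L) {ε : ℝ} (hε : 0 < ε) (y : X) : ∃ N, y ∈ GN Φ ε N := by
  by_contra hc
  push Not at hc
  let Z : ℕ → Set E := fun N => {w | w ∈ Metric.sphere (0 : E) 1 ∧ Φ (0 : ℕ) y w = w ∧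
    ∀ n ∈ Icc 1 N, ‖Φ (n : ℕ) y w‖ ≤ Real.exp (n * (mu Φ y - ε))}
  have hcl : ∀ N, IsClosed (Z N) := fun N => by
    refine Metric.isClosed_sphere.inter ((isClosed_eq (Φ _ y).continuous continuous_id).inter ?_)
    have : {w : E | ∀ n ∈ Icc 1 N, ‖Φ (n : ℕ) y w‖ ≤ Real.exp (n * (mu Φ y - ε))}
        = ⋂ n ∈ Icc 1 N, {w | ‖Φ (n : ℕ) y w‖ ≤ Real.exp (n * (mu Φ y - ε))} := by
      ext w
      simp
    change IsClosed {w : E | ∀ n ∈ Icc 1 N, ‖Φ (n : ℕ) y w‖ ≤ Real.exp (n * (mu Φ y - ε))}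
    rw [this]
    exact isClosed_biInter fun n _ => isClosed_le (Φ _ y).continuous.norm continuous_const
  obtain ⟨w, hw⟩ := IsCompact.nonempty_iInter_of_sequence_nonempty_isCompact_isClosed Z
    (fun N w hw => ⟨hw.1, hw.2.1, fun n hn => hw.2.2 n ⟨hn.1, hn.2.trans (Nat.le_succ N)⟩⟩)
    (fun N => by
      obtain ⟨w, h1, h2⟩ := not_notMem.1 (hc N)
      exact ⟨w, h1, h2⟩)
    ((isCompact_sphere (0 : E) 1).of_isClosed_subset (hcl 0) fun w hw => hw.1) hcl
  rw [mem_iInter] at hw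
  have h1 : Φ 0 y w = w := (hw 0).2.1
  have h2 : Va Φ y (mu Φ y - ε) ≠ ⊥ := by
    refine (ne_bot_iff_sphere _).2 ⟨w, (hw 0).1, h1, 1, fun n => ?_⟩
    rw [one_mul]
    rcases Nat.eq_zero_or_pos n with rfl | hn
    · rw [Nat.cast_zero, h1, Nat.cast_zero, zero_mul, Real.exp_zero]
      exact (mem_sphere_zero_iff_norm.1 (hw 0).1).le
    · exact (hw n).2.2 n ⟨hn, le_rfl⟩
  linarith [mu_le h h2]

lemma low_of_cnt (hτ : Act τ) (h : Coc τ Φ L) {ε δ : ℝ} (hε : 0 < ε) {N : ℕ} {x : X}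
    (hx : ∀ j : ℕ, cnt (τ 1) (GN Φ ε N)ᶜ j x ≤ δ * j) :
    ∃ C : ℝ, ∀ j : ℕ, ‖Φ (-j) (τ j x)‖ ≤ C * Real.exp (-(j * (mu Φ x - ε - 4 * L * δ))) := by
  set M := 4 * L with hM
  have hM0 : 0 ≤ M := by linarith [h.nn]
  set b := mu Φ x - ε with hb
  set N' := max N 1 with hN'
  have key : ∀ v : E, Φ 0 x v = v → ∀ j : ℕ,
      ‖v‖ ≤ Real.exp (N' * M) * Real.exp (-(j * (b - M * δ))) * ‖Φ j x v‖ := by
    intro v hv j
    by_cases h0 : v = 0
    · simp [h0]
    have hfix : ∀ i : ℕ, Φ 0 (τ i x) (Φ i x v) = Φ i x v := fun i => by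
      rw [← ContinuousLinearMap.mul_apply, h.zero_mul]
    have hne : ∀ i : ℕ, Φ i x v ≠ 0 := fun i hi => h0 (by
      rw [← hv, ← h.neg_mul i, ContinuousLinearMap.mul_apply, hi, map_zero])
    have hpos : ∀ i : ℕ, 0 < ‖Φ i x v‖ := fun i => norm_pos_iff.2 (hne i)
    set c : ℕ → ℝ := fun i => cnt (τ 1) (GN Φ ε N)ᶜ i x with hc
    have hcs : ∀ i, c (i + 1) = c i + (GN Φ ε N)ᶜ.indicator (fun _ => (1 : ℝ)) (τ i x) := fun i => by
      simp only [hc, cnt, Finset.sum_range_succ, hτ.iter, mul_one]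
    have hcm : Monotone c := monotone_nat_of_le_succ fun i => by
      rw [hcs]
      exact le_add_of_nonneg_right (indicator_nonneg (fun _ _ => zero_le_one) _)
    have hstep : ∀ i : ℕ, Real.log ‖Φ i x v‖ - 3 * L ≤ Real.log ‖Φ (i + 1 : ℕ) x v‖ := fun i => by
      have e : Φ i x v = Φ (-1) (τ (i + 1 : ℕ) x) (Φ (i + 1 : ℕ) x v) := by
        rw [← ContinuousLinearMap.mul_apply, ← h.add]
        congr 2
        push_cast
        ring
      have h1 : ‖Φ i x v‖ ≤ Real.exp (3 * L) * ‖Φ (i + 1 : ℕ) x v‖ := by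
        conv_lhs => rw [e]
        refine (h.apply_le _ _ _).trans_eq ?_
        congr 2
        push_cast
        rw [abs_neg, abs_one]
        ring
      have h2 := Real.log_le_log (hpos i) h1
      rw [Real.log_mul (Real.exp_pos _).ne' (hpos _).ne', Real.log_exp] at h2
      linarith
    have hbL : b ≤ L := by linarith [(abs_le.1 (abs_mu_le hτ h x)).2]
    have h3 := tile_seq (w := fun i => Real.log ‖Φ i x v‖ - i * b + M * c i) (N := N') hM0
      (fun i => by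
        by_cases hg : τ i x ∈ GN Φ ε N
        · obtain ⟨n, h1, h2, h3⟩ := GN_grow hg (hfix i) (hne i)
          refine ⟨n, h1, h2.trans (le_max_left _ _), ?_⟩
          rw [← ContinuousLinearMap.mul_apply, ← h.add, mu_inv hτ h, add_comm (n : ℤ),
            ← Nat.cast_add] at h3
          have h4 := Real.log_le_log (mul_pos (Real.exp_pos _) (hpos i)) h3
          rw [Real.log_mul (Real.exp_pos _).ne' (hpos _).ne', Real.log_exp] at h4
          have h5 := mul_le_mul_of_nonneg_left (hcm (Nat.le_add_right i n)) hM0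
          rw [Nat.cast_add (R := ℝ)]
          linarith
        · refine ⟨1, le_rfl, le_max_right _ _, ?_⟩
          have h1 := hstep i
          rw [hcs, indicator_of_mem (show τ i x ∈ (GN Φ ε N)ᶜ from hg), Nat.cast_add (R := ℝ),
            Nat.cast_one]
          linarith)
      (fun i => by
        have h1 := hstep i
        have h5 := mul_le_mul_of_nonneg_left (hcm (Nat.le_add_right i 1)) hM0
        rw [Nat.cast_add (R := ℝ), Nat.cast_one]
        linarith) j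
    have h4 : c 0 = 0 := by simp [hc, cnt]
    simp only [h4, Nat.cast_zero, zero_mul, mul_zero, sub_zero, add_zero, hv] at h3
    have h5 := mul_le_mul_of_nonneg_left (hx j) hM0
    rw [← Real.exp_log (norm_pos_iff.2 h0), ← Real.exp_log (hpos j), ← Real.exp_add, ← Real.exp_add]
    refine Real.exp_le_exp.2 ?_
    change M * c j ≤ _ at h5
    linarith
  refine ⟨Real.exp (N' * M) * Real.exp (L * 2), fun j => ?_⟩
  refine ContinuousLinearMap.opNorm_le_bound _ (by positivity) fun u => ?_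
  have e1 : Φ 0 x (Φ (-j) (τ j x) u) = Φ (-j) (τ j x) u := by
    have := h.zero_mul (-j) (τ j x)
    rw [← hτ.add, neg_add_cancel, hτ.zero] at this
    rw [← ContinuousLinearMap.mul_apply, this]
  refine (key _ e1 j).trans ?_
  rw [← ContinuousLinearMap.mul_apply, h.mul_neg hτ, mul_right_comm (Real.exp _) (Real.exp (L * 2)),
    mul_assoc _ (Real.exp (L * 2))]
  refine mul_le_mul_of_nonneg_left ((h.apply_le _ _ _).trans_eq ?_) (by positivity)
  simp

variable [MeasurableSpace X] {μ : Measure X} [IsFiniteMeasure μ]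

/-- the backward bound -/
lemma low_bound (hτ : Act τ) (hp : ∀ n, MeasurePreserving (τ n) μ μ) (h : Coc τ Φ L)
    (hm : ∀ n, Measurable (Φ n)) {ε : ℝ} (hε : 0 < ε) :
    ∀ᵐ x ∂μ, ∃ C : ℝ, ∀ j : ℕ, ‖Φ (-j) (τ j x)‖ ≤ C * Real.exp (-(j * (mu Φ x - ε))) := by
  have hL := h.nn
  have hG : ∀ N, MeasurableSet (GN Φ (ε / 2) N) := fun N =>
    (meas_ex (A := fun n : ℕ => Φ n) (isCompact_sphere _ _) (fun n => hm n)
      (fun n => (((meas_mu hτ h hm).sub_const _).const_mul _).exp) _).compl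
  filter_upwards [dens (hp 1) hG (GN_mono _) (Eventually.of_forall (GN_all h (half_pos hε)))
    (δ := ε / (8 * L + 2)) (by positivity)] with x hx
  obtain ⟨N, hN⟩ := hx
  obtain ⟨C, hC⟩ := low_of_cnt hτ h (half_pos hε) hN
  have hC0 : 0 ≤ C := by simpa using (norm_nonneg _).trans (hC 0)
  refine ⟨C, fun j => (hC j).trans (mul_le_mul_of_nonneg_left (Real.exp_le_exp.2 ?_) hC0)⟩
  have h1 : 4 * L * (ε / (8 * L + 2)) ≤ ε / 2 := by
    rw [← mul_div_assoc, div_le_iff₀ (by positivity)]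
    nlinarith
  exact neg_le_neg (mul_le_mul_of_nonneg_left (by linarith) (Nat.cast_nonneg j))

/-- tempered bounds from one-sided bounds -/
lemma bd_of_two (hτ : Act τ) (hp : ∀ n, MeasurePreserving (τ n) μ μ)
    {Ψ : ℤ → X → E →L[ℝ] E} (hadd : ∀ m n x, Ψ (m + n) x = Ψ m (τ n x) * Ψ n x)
    (hm : ∀ n, Measurable (Ψ n)) {l : X → ℝ} (hl : Measurable l) (hi : ∀ n x, l (τ n x) = l x)
    (h1 : ∀ ε, 0 < ε → ∀ᵐ x ∂μ, ∃ C : ℝ, ∀ n : ℕ, ‖Ψ n x‖ ≤ C * Real.exp (n * (l x + ε)))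
    (h2 : ∀ ε, 0 < ε → ∀ᵐ x ∂μ, ∃ C : ℝ, ∀ n : ℕ,
      ‖Ψ (-n) (τ n x)‖ ≤ C * Real.exp (-(n * (l x - ε)))) :
    ∀ᵐ x ∂μ, Bd τ Ψ x (l x) := by
  have key : ∀ ε, 0 < ε → ∀ᵐ x ∂μ, ∃ C : ℝ, ∀ m n : ℤ,
      ‖Ψ n (τ m x)‖ ≤ C * Real.exp (n * l x + 6 * ε * (|(n : ℝ)| + |(m : ℝ)|)) := by
    intro ε hε
    let H : ℕ → Set X := fun k => ⋂ n : ℕ, ({y | ‖Ψ n y‖ ≤ k * Real.exp (n * (l y + ε))} ∩
      {y | ‖Ψ (-n) (τ n y)‖ ≤ k * Real.exp (-(n * (l y - ε)))})
    have hH : ∀ k, MeasurableSet (H k) := fun k => MeasurableSet.iInter fun n =>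
      (measurableSet_le (hm _).norm (((hl.add_const _).const_mul _).exp.const_mul _)).inter
        (measurableSet_le ((hm _).comp (hp n).measurable).norm
          (((hl.sub_const _).const_mul _).neg.exp.const_mul _))
    have hmono : Monotone H := fun a b hab y hy => mem_iInter.2 fun n =>
      ⟨le_trans (mem_iInter.1 hy n).1 (mul_le_mul_of_nonneg_right (Nat.cast_le.2 hab)
        (Real.exp_pos _).le), le_trans (mem_iInter.1 hy n).2 (mul_le_mul_of_nonneg_right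
          (Nat.cast_le.2 hab) (Real.exp_pos _).le)⟩
    have hae : ∀ᵐ x ∂μ, ∃ k, x ∈ H k := by
      filter_upwards [h1 ε hε, h2 ε hε] with x ⟨C, hC⟩ ⟨D, hD⟩
      obtain ⟨k, hk⟩ := exists_nat_ge (max C D)
      exact ⟨k, mem_iInter.2 fun n => ⟨(hC n).trans (mul_le_mul_of_nonneg_right
        ((le_max_left _ _).trans hk) (Real.exp_pos _).le), (hD n).trans (mul_le_mul_of_nonneg_right
        ((le_max_right _ _).trans hk) (Real.exp_pos _).le)⟩⟩
    filter_upwards [ret (hp (-1)) hH hmono hae] with x ⟨k, hk⟩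
    refine ⟨k * k, fun m n => ?_⟩
    obtain ⟨i, a, b, c⟩ := hk (m.natAbs + n.natAbs)
    rw [hτ.iter] at c
    obtain ⟨p, hp'⟩ : ∃ p : ℕ, (p : ℤ) = m + i := ⟨(m + i).toNat, by omega⟩
    obtain ⟨q, hq⟩ : ∃ q : ℕ, (q : ℤ) = m + n + i := ⟨(m + n + i).toNat, by omega⟩
    set y := τ (i * -1) x with hy
    have e1 : τ m x = τ p y := hτ.add' (by omega) x
    have e2 : τ (-p) (τ p y) = y := by rw [← hτ.add, neg_add_cancel, hτ.zero]
    have e3 : Ψ n (τ m x) = Ψ q y * Ψ (-p) (τ p y) := by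
      rw [e1, show n = q + -p by omega, hadd, e2]
    have c1 := (mem_iInter.1 c q).1
    have c2 := (mem_iInter.1 c p).2
    simp only [mem_setOf_eq, hy, hi] at c1 c2
    rw [e3]
    refine (norm_mul_le _ _).trans ((mul_le_mul c1 c2 (norm_nonneg _) (by positivity)).trans ?_)
    rw [mul_mul_mul_comm, ← Real.exp_add]
    refine mul_le_mul_of_nonneg_left (Real.exp_le_exp.2 ?_) (by positivity)
    have r1 : (n : ℝ) = q - p := by exact_mod_cast (by omega : n = (q : ℤ) - p)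
    have r2 : (q : ℝ) + p ≤ 6 * (|(n : ℝ)| + |(m : ℝ)|) := by
      have : (q : ℤ) + p ≤ 6 * (|n| + |m|) := by
        rw [Int.abs_eq_natAbs, Int.abs_eq_natAbs]
        omega
      exact_mod_cast this
    have r3 := mul_le_mul_of_nonneg_left r2 hε.le
    have r4 : (n : ℝ) * l x = q * l x - p * l x := by rw [r1]; ring
    linarith
  filter_upwards [ae_all_iff.2 fun k : ℕ => key (1 / ((k : ℝ) + 1)) Nat.one_div_pos_of_nat]
    with x hx ε hε
  obtain ⟨k, hk⟩ := exists_nat_one_div_lt (show 0 < ε / 6 by positivity)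
  obtain ⟨C, hC⟩ := hx k
  have hC0 : 0 ≤ C := by simpa using (norm_nonneg _).trans (hC 0 0)
  refine ⟨C, fun m n => (hC m n).trans (mul_le_mul_of_nonneg_left (Real.exp_le_exp.2 ?_) hC0)⟩
  exact add_le_add le_rfl (mul_le_mul_of_nonneg_right (by linarith) (by positivity))

/-- the tempered bound on the slowest subspace -/
theorem bd_slow (hτ : Act τ) (hp : ∀ n, MeasurePreserving (τ n) μ μ) (h : Coc τ Φ L)
    (hm : ∀ n, Measurable (Φ n)) : ∀ᵐ x ∂μ, Bd τ (fun n y => Φ n y * Pr Φ y) x (mu Φ x) := by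
  refine bd_of_two (Ψ := fun n y => Φ n y * Pr Φ y) hτ hp (fun m n x => ?_) (fun n => (hm n).mul (meas_Pr hτ h hm))
    (meas_mu hτ h hm) (mu_inv hτ h) (fun ε hε => Eventually.of_forall fun x => up_bound x hε)
    fun ε hε => ?_
  · rw [mul_assoc, Pr_inv hτ h, ← mul_assoc, ← h.add]
  · filter_upwards [low_bound hτ hp h hm hε] with x ⟨C, hC⟩
    refine ⟨C, fun n => (norm_mul_le _ _).trans ?_⟩
    exact (mul_le_of_le_one_right (norm_nonneg _) (Pr_norm _)).trans (hC n)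

end Vale.Agent.P207Z.MET
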